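import Vale.Agent.P340.Confluence
import Mathlib.Data.Int.Notation
import Mathlib.Algebra.Order.Group.Int

namespace Vale.Agent.P340S

open Vale.Agent.P340 Vale.Agent.P340.Tm

variable {S : Type*}

/-- The specification is stratified by the rank `r`: axioms are functional and raise the rank by
exactly one, every product takes the sort of its codomain, and a product between distinct sorts
quantifies over the higher rank. -/
structure Strat (P : Spec S) (r : S → ℤ) : Prop where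
  axFun : ∀ a b b', P.ax a b → P.ax a b' → b = b'
  axRank : ∀ a b, P.ax a b → r b = r a + 1
  codom : ∀ a b c, P.rule a b c → c = b
  ruleRank : ∀ a b c, P.rule a b c → a = b ∨ r b < r a

theorem beq_trans {A B C : Tm S} (h : BetaEq A B) (h' : BetaEq B C) : BetaEq A C :=
  .trans _ _ _ h h'

theorem beq_symm {A B : Tm S} (h : BetaEq A B) : BetaEq B A := .symm _ _ h

theorem sort_inj {a b : S} (h : BetaEq (Tm.sort a) (Tm.sort b)) : a = b := by
  obtain ⟨d, h1, h2⟩ := betaEq_join h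
  have e1 := steps_sort h1
  rw [steps_sort h2] at e1
  cases e1; rfl

theorem sort_ne_pi {a : S} {A B : Tm S} : ¬ BetaEq (Tm.sort a) (Tm.pi A B) := by
  intro h
  obtain ⟨d, h1, h2⟩ := betaEq_join h
  obtain rfl := steps_sort h1
  obtain ⟨_, _, e, -, -⟩ := pi_steps h2
  cases e

theorem var_steps {i : ℕ} {X : Tm S} (h : Relation.ReflTransGen Step (Tm.var i) X) :
    X = Tm.var i := by
  induction h with
  | refl => rfl
  | tail _ hs ih => subst ih; cases hs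

theorem sort_ne_var {a : S} {i : ℕ} : ¬ BetaEq (Tm.sort a) (Tm.var i : Tm S) := by
  intro h
  obtain ⟨d, h1, h2⟩ := betaEq_join h
  obtain rfl := steps_sort h1
  cases var_steps h2

theorem pi_ne_var {A B : Tm S} {i : ℕ} : ¬ BetaEq (Tm.pi A B) (Tm.var i : Tm S) := by
  intro h
  obtain ⟨d, h1, h2⟩ := betaEq_join h
  obtain ⟨_, _, rfl, -, -⟩ := pi_steps h1
  cases var_steps h2

theorem look_unique {Γ : List (Tm S)} {i : ℕ} {T T' : Tm S} (h : Look Γ i T)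
    (h' : Look Γ i T') : T = T' := by
  induction h generalizing T' with
  | zero A Γ => cases h'; rfl
  | succ A _ ih => cases h' with | succ _ h' => rw [ih h']

theorem look_sort {P : Spec S} {Γ : List (Tm S)} (hΓ : Wf P Γ) {i : ℕ} {T : Tm S}
    (h : Look Γ i T) : ∃ s, Typ P Γ T (Tm.sort s) := by
  induction h with
  | zero A Γ => cases hΓ with | cons _ hA => exact ⟨_, .weak hA hA⟩
  | succ A _ ih =>
    cases hΓ with
    | cons hΓ hA => obtain ⟨s, hs⟩ := ih hΓ; exact ⟨s, .weak hs hA⟩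

variable {P : Spec S}

theorem genVar {Γ : List (Tm S)} {i : ℕ} {T : Tm S} (h : Typ P Γ (Tm.var i) T) :
    ∃ T', Look Γ i T' ∧ BetaEq T' T := by
  generalize hX : Tm.var i = X at h
  induction h generalizing i with
  | sortAx _ => cases hX
  | start _ _ => cases hX; exact ⟨_, .zero _ _, .refl _⟩
  | @weak Γ M B A s _ _ ih _ =>
    cases M <;> simp [sh, Tm.ren] at hX
    subst hX
    obtain ⟨T', h1, h2⟩ := ih rfl
    exact ⟨_, .succ _ h1, h2.ren _⟩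
  | prod _ _ _ => cases hX
  | abst _ _ _ _ => cases hX
  | appl _ _ _ _ => cases hX
  | conv _ _ he ih _ =>
    obtain ⟨T', h1, h2⟩ := ih hX
    exact ⟨T', h1, beq_trans h2 he⟩

theorem genSort' {Γ : List (Tm S)} {a : S} {T : Tm S} (h : Typ P Γ (Tm.sort a) T) :
    ∃ b, P.ax a b ∧ BetaEq (Tm.sort b) T := by
  generalize hX : Tm.sort a = X at h
  induction h generalizing a with
  | sortAx h => cases hX; exact ⟨_, h, .refl _⟩
  | start _ _ => cases hX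
  | @weak Γ M B A s _ _ ih _ =>
    cases M <;> simp [sh, Tm.ren] at hX
    subst hX
    obtain ⟨b, h1, h2⟩ := ih rfl
    exact ⟨b, h1, h2.ren Nat.succ⟩
  | prod _ _ _ => cases hX
  | abst _ _ _ _ => cases hX
  | appl _ _ _ _ => cases hX
  | conv _ _ he ih _ =>
    obtain ⟨b, h1, h2⟩ := ih hX
    exact ⟨b, h1, beq_trans h2 he⟩

theorem genPi' {Γ : List (Tm S)} {A B T : Tm S} (h : Typ P Γ (Tm.pi A B) T) :
    ∃ s₁ s₂ s₃, Typ P Γ A (Tm.sort s₁) ∧ Typ P (A :: Γ) B (Tm.sort s₂) ∧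
      P.rule s₁ s₂ s₃ ∧ BetaEq (Tm.sort s₃) T := by
  generalize hX : Tm.pi A B = X at h
  induction h generalizing A B with
  | sortAx _ => cases hX
  | start _ _ => cases hX
  | @weak Γ M B' A' s hM hA ih _ =>
    cases M <;> simp [sh, Tm.ren] at hX
    obtain ⟨rfl, rfl⟩ := hX
    obtain ⟨s₁, s₂, s₃, h1, h2, hr, he⟩ := ih rfl
    have h1' := Typ.weak h1 hA
    exact ⟨s₁, s₂, s₃, h1', h2.rename (.cons h1'.wf h1') ((RenTy.succ A' Γ).up _), hr,
      he.ren Nat.succ⟩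
  | prod hA hB hr => cases hX; exact ⟨_, _, _, hA, hB, hr, .refl _⟩
  | abst _ _ _ _ => cases hX
  | appl _ _ _ _ => cases hX
  | conv _ _ he ih _ =>
    obtain ⟨s₁, s₂, s₃, h1, h2, hr, he'⟩ := ih hX
    exact ⟨s₁, s₂, s₃, h1, h2, hr, beq_trans he' he⟩

theorem genApp {Γ : List (Tm S)} {f a T : Tm S} (h : Typ P Γ (Tm.app f a) T) :
    ∃ A B, Typ P Γ f (Tm.pi A B) ∧ Typ P Γ a A ∧ BetaEq (inst B a) T := by
  generalize hX : Tm.app f a = X at h
  induction h generalizing f a with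
  | sortAx _ => cases hX
  | start _ _ => cases hX
  | @weak Γ M B' A' s hM hA ih _ =>
    cases M <;> simp [sh, Tm.ren] at hX
    obtain ⟨rfl, rfl⟩ := hX
    obtain ⟨A, B, h1, h2, he⟩ := ih rfl
    refine ⟨sh A, Tm.ren (up Nat.succ) B, ?_, .weak h2 hA, ?_⟩
    · exact .weak h1 hA
    · have := he.ren Nat.succ
      rwa [ren_inst] at this
  | prod _ _ _ => cases hX
  | abst _ _ _ _ => cases hX
  | appl hM hN => cases hX; exact ⟨_, _, hM, hN, .refl _⟩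
  | conv _ _ he ih _ =>
    obtain ⟨A, B, h1, h2, he'⟩ := ih hX
    exact ⟨A, B, h1, h2, beq_trans he' he⟩

theorem typ_red {Γ : List (Tm S)} {M M' T : Tm S} (h : Typ P Γ M T)
    (hs : Relation.ReflTransGen Step M M') : Typ P Γ M' T := by
  induction hs with
  | refl => exact h
  | tail _ h' ih => exact ih.step h'

theorem RenTy.subTy {Γ Δ : List (Tm S)} {f : ℕ → ℕ} (h : RenTy f Γ Δ) (hΔ : Wf P Δ) :
    SubTy P (fun i => Tm.var (f i)) Γ Δ := fun i T hi => by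
  rw [← ren_eq_sub]; exact hΔ.varTyp (h i T hi)

variable {r : S → ℤ}

theorem Strat.typeUnique (hP : Strat P r) : ∀ (M : Tm S) {Γ : List (Tm S)} {T T' : Tm S},
    Typ P Γ M T → Typ P Γ M T' → BetaEq T T' := by
  intro M
  induction M with
  | var i =>
    intro Γ T T' h h'
    obtain ⟨U, h1, h2⟩ := genVar h
    obtain ⟨U', h1', h2'⟩ := genVar h'
    rw [look_unique h1' h1] at h2'
    exact beq_trans (beq_symm h2) h2'
  | sort a =>
    intro Γ T T' h h'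
    obtain ⟨b, h1, h2⟩ := genSort' h
    obtain ⟨b', h1', h2'⟩ := genSort' h'
    rw [hP.axFun _ _ _ h1' h1] at h2'
    exact beq_trans (beq_symm h2) h2'
  | app f a ihf _ =>
    intro Γ T T' h h'
    obtain ⟨A, B, hf, _, he⟩ := genApp h
    obtain ⟨A', B', hf', _, he'⟩ := genApp h'
    have := (betaEq_pi_inv (ihf hf hf')).2.sub (single a)
    exact beq_trans (beq_symm he) (beq_trans this he')
  | lam A M _ ihM =>
    intro Γ T T' h h'
    obtain ⟨B, s, hM, _, he⟩ := h.genLam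
    obtain ⟨B', s', hM', _, he'⟩ := h'.genLam
    obtain ⟨d, h1, h2⟩ := betaEq_join (ihM hM hM')
    have e : BetaEq (Tm.pi A B) (Tm.pi A B') := beq_trans
      (steps_betaEq (h1.lift (fun x => Tm.pi A x) fun _ _ hh => Step.piB _ hh))
      (beq_symm (steps_betaEq (h2.lift (fun x => Tm.pi A x) fun _ _ hh => Step.piB _ hh)))
    exact beq_trans (beq_symm he) (beq_trans e he')
  | pi A B _ ihB =>
    intro Γ T T' h h'
    obtain ⟨s₁, s₂, s₃, _, hB, hr, he⟩ := genPi' h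
    obtain ⟨t₁, t₂, t₃, _, hB', hr', he'⟩ := genPi' h'
    obtain rfl := hP.codom _ _ _ hr
    obtain rfl := hP.codom _ _ _ hr'
    rw [← sort_inj (ihB hB hB')] at he'
    exact beq_trans (beq_symm he) he'

theorem Strat.sortUnique (hP : Strat P r) {Γ : List (Tm S)} {M : Tm S} {a b : S}
    (h : Typ P Γ M (Tm.sort a)) (h' : Typ P Γ M (Tm.sort b)) : a = b :=
  sort_inj (hP.typeUnique M h h')

theorem Strat.convSort (hP : Strat P r) {Γ : List (Tm S)} {A B : Tm S} {a b : S}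
    (h : Typ P Γ A (Tm.sort a)) (h' : Typ P Γ B (Tm.sort b)) (he : BetaEq A B) : a = b := by
  obtain ⟨d, h1, h2⟩ := betaEq_join he
  exact hP.sortUnique (typ_red h h1) (typ_red h' h2)

/-- `Cls P Γ M c`: in `Γ`, the type of `M` has sort `c`. -/
def Cls (P : Spec S) (Γ : List (Tm S)) (M : Tm S) (c : S) : Prop :=
  ∃ T, Typ P Γ M T ∧ Typ P Γ T (Tm.sort c)

/-- `TopT P Γ M s`: `M` is an expression of a sort without axiom. -/
def TopT (P : Spec S) (Γ : List (Tm S)) (M : Tm S) (s : S) : Prop :=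
  Typ P Γ M (Tm.sort s) ∧ ∀ b, ¬ P.ax s b

theorem Cls.unique (hP : Strat P r) {Γ : List (Tm S)} {M : Tm S} {c d : S}
    (h : Cls P Γ M c) (h' : Cls P Γ M d) : c = d := by
  obtain ⟨T, h1, h2⟩ := h
  obtain ⟨T', h1', h2'⟩ := h'
  exact hP.convSort h2 h2' (hP.typeUnique M h1 h1')

theorem Cls.not_top (hP : Strat P r) {Γ : List (Tm S)} {M : Tm S} {c s : S}
    (h : Cls P Γ M c) (h' : TopT P Γ M s) : False := by
  obtain ⟨T, h1, h2⟩ := h
  obtain ⟨b, hb⟩ := (h2.sortOfBetaEq (hP.typeUnique M h'.1 h1)).genSort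
  exact h'.2 b hb

theorem cls_or_top {Γ : List (Tm S)} {M T : Tm S} (h : Typ P Γ M T) :
    (∃ c, Cls P Γ M c) ∨ ∃ s, TopT P Γ M s := by
  rcases h.validity with ⟨s, rfl⟩ | ⟨c, hc⟩
  · by_cases hb : ∃ b, P.ax s b
    · obtain ⟨b, hb⟩ := hb
      exact .inl ⟨b, _, h, h.wf.axTyp hb⟩
    · exact .inr ⟨s, h, fun b hs => hb ⟨b, hs⟩⟩
  · exact .inl ⟨c, _, h, hc⟩

theorem cls_of_sorted {Γ : List (Tm S)} {M : Tm S} {d e : S} (h : Typ P Γ M (Tm.sort d))
    (he : P.ax d e) : Cls P Γ M e := ⟨_, h, h.wf.axTyp he⟩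

theorem Strat.cls_sorted (hP : Strat P r) {Γ : List (Tm S)} {M : Tm S} {d e : S}
    (h : Typ P Γ M (Tm.sort d)) (he : Cls P Γ M e) : P.ax d e := by
  obtain ⟨T, h1, h2⟩ := he
  obtain ⟨b, hb, hbe⟩ := genSort' (h2.sortOfBetaEq (hP.typeUnique M h h1))
  rwa [sort_inj hbe] at hb

theorem Cls.step {Γ : List (Tm S)} {M M' : Tm S} {c : S} (h : Cls P Γ M c)
    (hs : Step M M') : Cls P Γ M' c :=
  let ⟨T, h1, h2⟩ := h; ⟨T, h1.step hs, h2⟩

theorem Cls.steps {Γ : List (Tm S)} {M M' : Tm S} {c : S} (h : Cls P Γ M c)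
    (hs : Relation.ReflTransGen Step M M') : Cls P Γ M' c :=
  let ⟨T, h1, h2⟩ := h; ⟨T, typ_red h1 hs, h2⟩

theorem TopT.step {Γ : List (Tm S)} {M M' : Tm S} {s : S} (h : TopT P Γ M s)
    (hs : Step M M') : TopT P Γ M' s := ⟨h.1.step hs, h.2⟩

theorem Cls.sub {Γ Δ : List (Tm S)} {σ : ℕ → Tm S} {M : Tm S} {c : S} (h : Cls P Γ M c)
    (hΔ : Wf P Δ) (hσ : SubTy P σ Γ Δ) : Cls P Δ (Tm.sub σ M) c :=
  let ⟨T, h1, h2⟩ := h; ⟨Tm.sub σ T, h1.subst hΔ hσ, h2.subst hΔ hσ⟩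

theorem Cls.ren {Γ Δ : List (Tm S)} {f : ℕ → ℕ} {M : Tm S} {c : S} (h : Cls P Γ M c)
    (hΔ : Wf P Δ) (hf : RenTy f Γ Δ) : Cls P Δ (Tm.ren f M) c :=
  let ⟨T, h1, h2⟩ := h; ⟨Tm.ren f T, h1.rename hΔ hf, h2.rename hΔ hf⟩

theorem Cls.sub_iff (hP : Strat P r) {Γ Δ : List (Tm S)} {σ : ℕ → Tm S} {M T : Tm S} {c : S}
    (h : Typ P Γ M T) (hΔ : Wf P Δ) (hσ : SubTy P σ Γ Δ) :
    Cls P Δ (Tm.sub σ M) c ↔ Cls P Γ M c := by
  refine ⟨fun h' => ?_, fun h' => h'.sub hΔ hσ⟩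
  rcases cls_or_top h with ⟨d, hd⟩ | ⟨s, hs⟩
  · rwa [(hd.sub hΔ hσ).unique hP h'] at hd
  · exact (h'.not_top hP ⟨hs.1.subst hΔ hσ, hs.2⟩).elim

theorem Cls.ren_iff (hP : Strat P r) {Γ Δ : List (Tm S)} {f : ℕ → ℕ} {M T : Tm S} {c : S}
    (h : Typ P Γ M T) (hΔ : Wf P Δ) (hf : RenTy f Γ Δ) :
    Cls P Δ (Tm.ren f M) c ↔ Cls P Γ M c := by
  rw [ren_eq_sub]; exact Cls.sub_iff hP h hΔ (RenTy.subTy hf hΔ)

theorem cls_var {Γ : List (Tm S)} (hΓ : Wf P Γ) {i : ℕ} {T : Tm S} {k : S}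
    (hi : Look Γ i T) (hT : Typ P Γ T (Tm.sort k)) : Cls P Γ (Tm.var i) k :=
  ⟨T, hΓ.varTyp hi, hT⟩

theorem cls_app (hP : Strat P r) {Γ : List (Tm S)} {f a : Tm S} {c : S}
    (h : Cls P Γ (Tm.app f a) c) : Cls P Γ f c ∧ ∃ A B d, Typ P Γ f (Tm.pi A B) ∧
      Typ P Γ a A ∧ Typ P Γ A (Tm.sort d) ∧ Typ P (A :: Γ) B (Tm.sort c) ∧ P.rule d c c := by
  obtain ⟨T, hT, hTc⟩ := h
  obtain ⟨A, B, hf, ha, he⟩ := genApp hT
  rcases hf.validity with ⟨s, e⟩ | ⟨s, hp⟩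
  · cases e
  · obtain ⟨s₁, s₂, s₃, hA, hB, hr, hs⟩ := genPi' hp
    obtain rfl := hP.codom _ _ _ hr
    obtain rfl := hP.convSort (hB.inst0 ha) hTc he
    exact ⟨⟨_, hf, .prod hA hB hr⟩, A, B, s₁, hf, ha, hA, hB, hr⟩

theorem cls_lam (hP : Strat P r) {Γ : List (Tm S)} {A M : Tm S} {c : S}
    (h : Cls P Γ (Tm.lam A M) c) : ∃ B d, Typ P (A :: Γ) M B ∧ Typ P Γ A (Tm.sort d) ∧
      Typ P (A :: Γ) B (Tm.sort c) ∧ P.rule d c c := by
  obtain ⟨T, hT, hTc⟩ := h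
  obtain ⟨B, s, hM, hp, he⟩ := hT.genLam
  obtain ⟨s₁, s₂, s₃, hA, hB, hr, -⟩ := genPi' hp
  obtain rfl := hP.codom _ _ _ hr
  obtain rfl := hP.convSort (Typ.prod hA hB hr) hTc he
  exact ⟨B, s₁, hM, hA, hB, hr⟩

theorem cls_pi (hP : Strat P r) {Γ : List (Tm S)} {A B : Tm S} {c : S}
    (h : Cls P Γ (Tm.pi A B) c) : ∃ d e, Typ P Γ A (Tm.sort d) ∧ Typ P (A :: Γ) B (Tm.sort e) ∧
      P.rule d e e ∧ P.ax e c ∧ Cls P (A :: Γ) B c := by
  obtain ⟨T, hT, hTc⟩ := h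
  obtain ⟨s₁, s₂, s₃, hA, hB, hr, -⟩ := genPi' hT
  obtain rfl := hP.codom _ _ _ hr
  have hax := hP.cls_sorted (Typ.prod hA hB hr) ⟨T, hT, hTc⟩
  exact ⟨s₁, _, hA, hB, hr, hax, cls_of_sorted hB hax⟩

theorem top_cases (hP : Strat P r) {Γ : List (Tm S)} {M : Tm S} {s : S} (h : TopT P Γ M s) :
    (∃ t, M = Tm.sort t) ∨ ∃ A B d, M = Tm.pi A B ∧ Typ P Γ A (Tm.sort d) ∧
      TopT P (A :: Γ) B s ∧ P.rule d s s := by
  cases M with
  | var i =>
    obtain ⟨T', hi, -⟩ := genVar h.1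
    obtain ⟨k, hk⟩ := look_sort h.1.wf hi
    exact ((cls_var h.1.wf hi hk).not_top hP h).elim
  | sort t => exact .inl ⟨t, rfl⟩
  | app f a =>
    obtain ⟨A, B, hf, ha, -⟩ := genApp h.1
    obtain ⟨s₁, s₂, -, hB⟩ := hf.typeOfPi
    exact (Cls.not_top hP ⟨_, .appl hf ha, hB.inst0 ha⟩ h).elim
  | lam A M =>
    obtain ⟨B, t, -, -, he⟩ := h.1.genLam
    exact (sort_ne_pi (beq_symm he)).elim
  | pi A B =>
    obtain ⟨s₁, s₂, s₃, hA, hB, hr, he⟩ := genPi' h.1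
    obtain rfl := hP.codom _ _ _ hr
    obtain rfl := sort_inj he
    exact .inr ⟨A, B, s₁, rfl, hA, ⟨hB, h.2⟩, hr⟩

theorem SubTy.var_self {Γ : List (Tm S)} (hΓ : Wf P Γ) : SubTy P Tm.var Γ Γ := fun i T hi => by
  rw [sub_var]; exact hΓ.varTyp hi

theorem SubTy.var_conv {Γ : List (Tm S)} {A A' : Tm S} {s s' : S}
    (hA : Typ P Γ A (Tm.sort s)) (hA' : Typ P Γ A' (Tm.sort s')) (he : BetaEq A' A) :
    SubTy P Tm.var (A :: Γ) (A' :: Γ) := fun i T hi => by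
  rw [sub_var]
  cases hi with
  | zero => exact .conv (.start hA') (.weak hA hA') (he.ren _)
  | succ _ hi => exact .weak (hA'.wf.varTyp hi) hA'

theorem SubTy.single {Γ : List (Tm S)} {A N : Tm S} (hN : Typ P Γ N A) :
    SubTy P (Tm.single N) (A :: Γ) Γ := by
  intro i T hi
  cases hi with
  | zero => rw [show Tm.sub (Tm.single N) (sh A) = A from inst_sh A N]; exact hN
  | @succ _ _ j T hi =>
    rw [show Tm.sub (Tm.single N) (sh T) = T from inst_sh T N]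
    exact hN.wf.varTyp hi

end Vale.Agent.P340S
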