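import Vale.Agent.P340S.Skel

namespace Vale.Agent.P340S

open Vale.Agent.P340 Vale.Agent.P340.Tm
open Classical

variable {S : Type*}

/-- Reducibility candidates: sets of strongly normalizing expressions containing the neutral
ones and closed under head expansion. -/
structure Cand (S : Type*) where
  mem : Tm S → Prop
  sn : ∀ t, mem t → SAcc t
  neut : ∀ t, Neut t → SAcc t → mem t
  expand : ∀ A M Q Ns, SAcc A → SAcc Q → mem (apps (inst M Q) Ns) →
    mem (apps (Tm.app (Tm.lam A M) Q) Ns)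

theorem apps_snoc (h u : Tm S) (Ns : List (Tm S)) :
    apps h (Ns ++ [u]) = Tm.app (apps h Ns) u := by
  induction Ns generalizing h with
  | nil => rfl
  | cons N Ns ih => exact ih _

theorem sacc_app_left {t u : Tm S} (h : SAcc (Tm.app t u)) : SAcc t := by
  generalize hX : Tm.app t u = X at h
  induction h generalizing t with
  | intro X _ ih => subst hX; exact ⟨_, fun t' ht => ih _ (.appL u ht) rfl⟩

namespace Cand

/-- The candidate of all strongly normalizing expressions. -/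
def top : Cand S where
  mem := SAcc
  sn _ h := h
  neut _ _ h := h
  expand _ _ _ _ hA hQ h := SAcc.expand hA hQ h

/-- The function space of two candidates. -/
def arrow (a b : Cand S) : Cand S where
  mem t := ∀ u, a.mem u → b.mem (Tm.app t u)
  sn t h := sacc_app_left (b.sn _ (h _ (a.neut _ (.var 0) (SAcc.var 0))))
  neut t hn ht u hu := b.neut _ (.app _ hn) (ht.app hn (a.sn _ hu))
  expand A M Q Ns hA hQ h u hu := by
    have := b.expand A M Q (Ns ++ [u]) hA hQ (by rw [apps_snoc]; exact h u hu)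
    rwa [apps_snoc] at this

/-- The candidate of functions of an erased argument. -/
def skip (k : S) (b : Cand S) : Cand S where
  mem t := b.mem (Tm.app t (Tm.sort k))
  sn _ h := sacc_app_left (b.sn _ h)
  neut t hn ht := b.neut _ (.app _ hn) (ht.app hn (SAcc.sort k))
  expand A M Q Ns hA hQ h := by
    have := b.expand A M Q (Ns ++ [Tm.sort k]) hA hQ (by rw [apps_snoc]; exact h)
    rwa [apps_snoc] at this

/-- Intersections of candidates. -/
def inter {ι : Sort*} (f : ι → Cand S) : Cand S where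
  mem t := SAcc t ∧ ∀ i, (f i).mem t
  sn _ h := h.1
  neut t hn ht := ⟨ht, fun i => (f i).neut t hn ht⟩
  expand A M Q Ns hA hQ h :=
    ⟨SAcc.expand hA hQ h.1, fun i => (f i).expand A M Q Ns hA hQ (h.2 i)⟩

instance : Inhabited (Cand S) := ⟨top⟩

theorem lam_arrow {a b : Cand S} {l M : Tm S} (hl : SAcc l)
    (h : ∀ u, a.mem u → b.mem (inst M u)) : (arrow a b).mem (Tm.lam l M) := fun u hu =>
  b.expand l M u [] hl (a.sn _ hu) (h u hu)

theorem lam_skip {k : S} {b : Cand S} {l M : Tm S} (hl : SAcc l)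
    (h : b.mem (inst M (Tm.sort k))) : (skip k b).mem (Tm.lam l M) :=
  b.expand l M _ [] hl (SAcc.sort k) h

end Cand

/-- Prepend a value to an assignment. -/
def scons {α : Sort*} (a : α) (f : ℕ → α) : ℕ → α
  | 0 => a
  | n + 1 => f n

theorem inst_ups (γ : ℕ → Tm S) (M u : Tm S) :
    inst (Tm.sub (ups γ) M) u = Tm.sub (scons u γ) M := by
  rw [inst, sub_sub]
  refine sub_ext (fun i => ?_) M
  cases i with
  | zero => rfl
  | succ i => exact inst_sh (γ i) u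

/-- An interpretation of the types of sort `c` sufficient for strong normalization of the
class-`c` skeleton. -/
structure Model (P : Spec S) (c : S) where
  Env : List (Tm S) → Type*
  I : ∀ Γ, Env Γ → Tm S → Cand S
  init : ∀ Γ, Wf P Γ → Nonempty (Env Γ)
  conv : ∀ Γ e T T', Typ P Γ T (Tm.sort c) → Typ P Γ T' (Tm.sort c) → BetaEq T T' →
    I Γ e T = I Γ e T'
  ext : ∀ Γ A d e, Typ P Γ A (Tm.sort d) →
    ∃ e' : Env (A :: Γ), ∀ T, Typ P Γ T (Tm.sort c) → I _ e' (sh T) = I Γ e T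
  app : ∀ Γ A B a d e, Typ P Γ A (Tm.sort d) → Typ P (A :: Γ) B (Tm.sort c) → P.rule d c c →
    Typ P Γ a A → ∀ t u, (I Γ e (Tm.pi A B)).mem t → (d = c → (I Γ e A).mem u) →
      (d ≠ c → u = Tm.sort c) → (I Γ e (inst B a)).mem (Tm.app t u)
  lam : ∀ Γ A B d e, Typ P Γ A (Tm.sort d) → Typ P (A :: Γ) B (Tm.sort c) → P.rule d c c →
    ∀ l M, SAcc l → SAcc M →
      (∀ e' : Env (A :: Γ), (∀ T, Typ P Γ T (Tm.sort c) → I _ e' (sh T) = I Γ e T) →
        ∀ u, (d = c → (I _ e' (sh A)).mem u) → (d ≠ c → u = Tm.sort c) →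
          (I _ e' B).mem (inst M u)) →
      (I Γ e (Tm.pi A B)).mem (Tm.lam l M)

variable {P : Spec S} {r : S → ℤ} {c : S}

theorem Model.good_ext (hP : Strat P r) (𝔐 : Model P c) {Γ : List (Tm S)} {A : Tm S} {d : S}
    (hA : Typ P Γ A (Tm.sort d)) {e : 𝔐.Env Γ} {e' : 𝔐.Env (A :: Γ)}
    (he : ∀ T, Typ P Γ T (Tm.sort c) → 𝔐.I _ e' (sh T) = 𝔐.I Γ e T) {γ : ℕ → Tm S}
    (hγ : ∀ i T, Look Γ i T → Typ P Γ T (Tm.sort c) → (𝔐.I Γ e T).mem (γ i)) {u : Tm S}
    (hu : d = c → (𝔐.I _ e' (sh A)).mem u) :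
    ∀ i T, Look (A :: Γ) i T → Typ P (A :: Γ) T (Tm.sort c) →
      (𝔐.I _ e' T).mem (scons u γ i) := by
  intro i T hi hT
  cases hi with
  | zero => exact hu (hP.sortUnique (.weak hA hA) hT)
  | @succ _ _ j T hi =>
    obtain ⟨k, hk⟩ := look_sort hA.wf hi
    obtain rfl : k = c := hP.sortUnique (.weak hk hA) hT
    rw [he T hk]
    exact hγ j T hi hk

theorem Model.fund (hP : Strat P r) (𝔐 : Model P c) : ∀ (M : Tm S) {Γ : List (Tm S)} {T : Tm S},
    Typ P Γ M T → Typ P Γ T (Tm.sort c) → ∀ (e : 𝔐.Env Γ) (γ : ℕ → Tm S),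
      (∀ i T, Look Γ i T → Typ P Γ T (Tm.sort c) → (𝔐.I Γ e T).mem (γ i)) →
      (𝔐.I Γ e T).mem (Tm.sub γ (sk P c Γ M)) := by
  intro M
  induction M with
  | var i =>
    intro Γ T h hT e γ hγ
    obtain ⟨T', hi, he⟩ := genVar h
    obtain ⟨k, hk⟩ := look_sort h.wf hi
    obtain rfl := hP.convSort hk hT he
    rw [← 𝔐.conv Γ e T' T hk hT he]
    exact hγ i T' hi hk
  | sort s => intro Γ T _ _ e γ _; exact (𝔐.I Γ e T).neut _ (.sort s) (SAcc.sort s)
  | app f a ihf iha =>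
    intro Γ T h hT e γ hγ
    obtain ⟨-, A, B, d, hf, ha, hA, hB, hr⟩ := cls_app hP ⟨T, h, hT⟩
    rw [← 𝔐.conv Γ e _ T (hB.inst0 ha) hT (hP.typeUnique _ (.appl hf ha) h)]
    simp only [sk, Tm.sub]
    refine 𝔐.app Γ A B a d e hA hB hr ha _ _ (ihf hf (.prod hA hB hr) e γ hγ) ?_ ?_
    · rintro rfl
      rw [if_pos (show Cls P Γ a _ from ⟨A, ha, hA⟩)]
      exact iha ha hA e γ hγ
    · intro hd
      rw [if_neg (fun h1 => hd (Cls.unique hP ⟨A, ha, hA⟩ h1))]
      rfl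
  | lam A M _ ihM =>
    intro Γ T h hT e γ hγ
    obtain ⟨B, d, hM, hA, hB, hr⟩ := cls_lam hP ⟨T, h, hT⟩
    have hp := Typ.prod hA hB hr
    rw [← 𝔐.conv Γ e _ T hp hT (hP.typeUnique _ (.abst hM hp) h)]
    simp only [sk, Tm.sub]
    have body : ∀ e' : 𝔐.Env (A :: Γ),
        (∀ T, Typ P Γ T (Tm.sort c) → 𝔐.I _ e' (sh T) = 𝔐.I Γ e T) →
        ∀ u, (d = c → (𝔐.I _ e' (sh A)).mem u) →
          (𝔐.I _ e' B).mem (inst (Tm.sub (ups γ) (sk P c (A :: Γ) M)) u) := by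
      intro e' he' u hu
      rw [inst_ups]
      exact ihM hM hB e' _ (𝔐.good_ext hP hA he' hγ hu)
    refine 𝔐.lam Γ A B d e hA hB hr _ _ (SAcc.sort _) ?_ (fun e' he' u hu _ => body e' he' u hu)
    obtain ⟨e', he'⟩ := 𝔐.ext Γ A d e hA
    exact SAcc.of_sub (σ := Tm.single (Tm.sort c)) ((𝔐.I _ e' B).sn _
      (body e' he' (Tm.sort c) fun _ => (𝔐.I _ e' _).neut _ (.sort c) (SAcc.sort c)))
  | pi A B ihA ihB =>
    intro Γ T h hT e γ hγ
    obtain ⟨d, s, hA, hB, hr, hax, -⟩ := cls_pi hP ⟨T, h, hT⟩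
    simp only [sk, Tm.sub]
    refine (𝔐.I Γ e T).neut _ (.pi _ _) (SAcc.pi (SAcc.app (.app _ (.sort _))
      (SAcc.app (.sort _) (SAcc.sort _) (SAcc.sort _)) ?_) ?_)
    · by_cases hc : Cls P Γ A c
      · rw [if_pos hc]
        have hd := hP.cls_sorted hA hc
        exact (𝔐.I Γ e _).sn _ (ihA hA (hA.wf.axTyp hd) e γ hγ)
      · rw [if_neg hc]; exact SAcc.sort c
    · obtain ⟨e', he'⟩ := 𝔐.ext Γ A d e hA
      have := ihB hB (hB.wf.axTyp hax) e' _ (𝔐.good_ext hP hA he' hγ (u := Tm.sort c)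
        fun _ => (𝔐.I _ e' _).neut _ (.sort c) (SAcc.sort c))
      rw [← inst_ups] at this
      exact SAcc.of_sub (σ := Tm.single (Tm.sort c)) ((𝔐.I _ e' _).sn _ this)

theorem Model.sn (hP : Strat P r) (hi : Hi P r c) (𝔐 : Model P c) {Γ : List (Tm S)} {M : Tm S}
    (h : Cls P Γ M c) : SAcc M := by
  obtain ⟨T, h1, h2⟩ := id h
  obtain ⟨e⟩ := 𝔐.init Γ h1.wf
  refine lift_sn hP hi h (SAcc.of_sub (σ := fun _ => Tm.sort c) ((𝔐.I Γ e T).sn _
    (𝔐.fund hP M h1 h2 e _ fun i T' _ _ => (𝔐.I Γ e T').neut _ (.sort c) (SAcc.sort c))))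

end Vale.Agent.P340S
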