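import Vale.Agent.P340S.Shape
import Mathlib.Data.Fin.VecNotation
import Mathlib.Tactic.IntervalCases

namespace Vale.Agent.P340S

open Vale.Agent.P340 Vale.Agent.P340.Tm
open Classical

/-- `c` is the lowest sort of a copy of Girard's inconsistent system. -/
def Quad {S : Type*} (P : Spec S) (c : S) : Prop :=
  ∃ c₁ c₂, P.ax c c₁ ∧ P.ax c₁ c₂ ∧ P.rule c c c ∧ P.rule c₁ c c ∧ P.rule c₁ c₁ c₁ ∧
    P.rule c₂ c₁ c₁

/-- The three-sorted system with polymorphism at the first two levels. -/
def girard : Spec (Fin 3) where
  ax a b := b.val = a.val + 1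
  rule a b c := c = b ∧ b.val < 2 ∧ (a.val = b.val ∨ a.val = b.val + 1)

/-- Change of sorts in an expression. -/
def tmap {S T : Type*} (φ : S → T) : Tm S → Tm T
  | Tm.var i => Tm.var i
  | Tm.sort s => Tm.sort (φ s)
  | Tm.app f a => Tm.app (tmap φ f) (tmap φ a)
  | Tm.lam A M => Tm.lam (tmap φ A) (tmap φ M)
  | Tm.pi A M => Tm.pi (tmap φ A) (tmap φ M)

section tmap

variable {S T : Type*} (φ : S → T)

theorem tmap_ren (M : Tm S) : ∀ f : ℕ → ℕ, tmap φ (Tm.ren f M) = Tm.ren f (tmap φ M) := by
  induction M <;> intro f <;> simp_all [tmap, Tm.ren]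

theorem tmap_sub (M : Tm S) : ∀ σ : ℕ → Tm S,
    tmap φ (Tm.sub σ M) = Tm.sub (fun i => tmap φ (σ i)) (tmap φ M) := by
  have hu : ∀ σ : ℕ → Tm S, (fun i => tmap φ (ups σ i)) = ups (fun i => tmap φ (σ i)) := by
    intro σ; funext i
    cases i with
    | zero => rfl
    | succ i => exact tmap_ren φ (σ i) _
  induction M <;> intro σ <;> simp_all [tmap, Tm.sub]

theorem tmap_inst (M N : Tm S) : tmap φ (inst M N) = inst (tmap φ M) (tmap φ N) := by
  rw [inst, tmap_sub, inst]
  refine sub_ext (fun i => ?_) _
  cases i <;> rfl

theorem tmap_step {M N : Tm S} (h : Step M N) : Step (tmap φ M) (tmap φ N) := by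
  induction h with
  | beta A M N => rw [tmap_inst]; exact .beta _ _ _
  | appL N _ ih => exact .appL _ ih
  | appR N _ ih => exact .appR _ ih
  | lamA N _ ih => exact .lamA _ ih
  | lamM N _ ih => exact .lamM _ ih
  | piA N _ ih => exact .piA _ ih
  | piB N _ ih => exact .piB _ ih

theorem tmap_beq {M N : Tm S} (h : BetaEq M N) : BetaEq (tmap φ M) (tmap φ N) := by
  induction h with
  | rel x y h => exact .rel _ _ (tmap_step φ h)
  | refl x => exact .refl _
  | symm x y _ ih => exact .symm _ _ ih
  | trans x y z _ _ i1 i2 => exact .trans _ _ _ i1 i2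

/-- A map of sorts preserving axioms and rules preserves typing. -/
theorem tmap_typ {P : Spec S} {Q : Spec T} (ha : ∀ a b, P.ax a b → Q.ax (φ a) (φ b))
    (hr : ∀ a b c, P.rule a b c → Q.rule (φ a) (φ b) (φ c)) {Γ : List (Tm S)} {M B : Tm S}
    (h : Typ P Γ M B) : Typ Q (Γ.map (tmap φ)) (tmap φ M) (tmap φ B) := by
  induction h with
  | sortAx h => exact .sortAx (ha _ _ h)
  | start _ ih => simp only [List.map_cons, tmap, sh, tmap_ren] at *; exact .start ih
  | weak _ _ i1 i2 => simp only [List.map_cons, sh, tmap_ren] at *; exact .weak i1 i2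
  | prod _ _ h i1 i2 => exact .prod i1 i2 (hr _ _ _ h)
  | abst _ _ i1 i2 => exact .abst i1 i2
  | appl _ _ i1 i2 => rw [tmap_inst]; exact .appl i1 i2
  | conv _ _ he i1 i2 => exact .conv i1 i2 (tmap_beq φ he)

end tmap

/-- Equality test. -/
def teq : Tm (Fin 3) → Tm (Fin 3) → Bool
  | Tm.var i, Tm.var j => i == j
  | Tm.sort s, Tm.sort t => s.val == t.val
  | Tm.app f a, Tm.app g b => teq f g && teq a b
  | Tm.lam f a, Tm.lam g b => teq f g && teq a b
  | Tm.pi f a, Tm.pi g b => teq f g && teq a b
  | _, _ => false

theorem teq_sound : ∀ (M N : Tm (Fin 3)), teq M N = true → M = N := by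
  intro M
  induction M <;> intro N <;> cases N <;> simp_all [teq, Fin.val_inj]
  all_goals intro h1 h2
  all_goals exact ⟨by grind, by grind⟩

/-- Reduction with bounded depth. -/
def nfb : ℕ → Tm (Fin 3) → Tm (Fin 3)
  | 0, M => M
  | n + 1, Tm.app f a =>
      match nfb n f with
      | Tm.lam _ M => nfb n (inst M a)
      | g => Tm.app g (nfb n a)
  | n + 1, Tm.lam A M => Tm.lam (nfb n A) (nfb n M)
  | n + 1, Tm.pi A M => Tm.pi (nfb n A) (nfb n M)
  | _ + 1, M => M

theorem nfb_steps : ∀ (n : ℕ) (M : Tm (Fin 3)), Relation.ReflTransGen Step M (nfb n M) := by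
  intro n
  induction n with
  | zero => intro M; exact .refl
  | succ n ih =>
    intro M
    cases M with
    | var i => exact .refl
    | sort s => exact .refl
    | lam A M =>
      exact ((ih A).lift (fun x => Tm.lam x M) fun _ _ hh => Step.lamA _ hh).trans
        ((ih M).lift (fun x => Tm.lam (nfb n A) x) fun _ _ hh => Step.lamM _ hh)
    | pi A M =>
      exact ((ih A).lift (fun x => Tm.pi x M) fun _ _ hh => Step.piA _ hh).trans
        ((ih M).lift (fun x => Tm.pi (nfb n A) x) fun _ _ hh => Step.piB _ hh)
    | app f a =>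
      have h1 : Relation.ReflTransGen Step (Tm.app f a) (Tm.app (nfb n f) a) :=
        (ih f).lift (fun x => Tm.app x a) fun _ _ hh => Step.appL _ hh
      refine h1.trans ?_
      simp only [nfb]
      split
      · next A M e => rw [e]; exact Relation.ReflTransGen.head (.beta _ _ _) (ih _)
      · exact (ih a).lift (fun x => Tm.app (nfb n f) x) fun _ _ hh => Step.appR _ hh

/-- Look up a declaration. -/
def look? : List (Tm (Fin 3)) → ℕ → Option (Tm (Fin 3))
  | [], _ => none
  | A :: _, 0 => some (sh A)
  | _ :: Γ, i + 1 => (look? Γ i).map sh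

theorem look?_sound : ∀ (Γ : List (Tm (Fin 3))) (i : ℕ) (T : Tm (Fin 3)),
    look? Γ i = some T → Look Γ i T := by
  intro Γ
  induction Γ with
  | nil => intro i T h; simp [look?] at h
  | cons A Γ ih =>
    intro i T h
    cases i with
    | zero => simp [look?] at h; subst h; exact .zero _ _
    | succ i =>
      simp [look?] at h
      obtain ⟨U, hU, rfl⟩ := h
      exact .succ _ (ih _ _ hU)

/-- A type inference algorithm for `girard`. -/
def infer : ℕ → List (Tm (Fin 3)) → Tm (Fin 3) → Option (Tm (Fin 3))
  | 0, _, _ => none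
  | _ + 1, Γ, Tm.var i => look? Γ i
  | _ + 1, _, Tm.sort s => if h : s.val < 2 then some (Tm.sort ⟨s.val + 1, by omega⟩) else none
  | n + 1, Γ, Tm.app f a =>
      match infer n Γ f, infer n Γ a with
      | some T, some A' =>
          match nfb 60 T with
          | Tm.pi A B => if teq (nfb 60 A') (nfb 60 A) then some (inst B a) else none
          | _ => none
      | _, _ => none
  | n + 1, Γ, Tm.pi A B =>
      match infer n Γ A with
      | some T =>
          match nfb 60 T with
          | Tm.sort s₁ =>
              match infer n (A :: Γ) B with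
              | some U =>
                  match nfb 60 U with
                  | Tm.sort s₂ =>
                      if s₂.val < 2 ∧ (s₁.val = s₂.val ∨ s₁.val = s₂.val + 1) then
                        some (Tm.sort s₂)
                      else none
                  | _ => none
              | none => none
          | _ => none
      | none => none
  | n + 1, Γ, Tm.lam A M =>
      match infer n Γ A with
      | some T =>
          match nfb 60 T with
          | Tm.sort _ =>
              match infer n (A :: Γ) M with
              | some B =>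
                  match infer n Γ (Tm.pi A B) with
                  | some U =>
                      match nfb 60 U with
                      | Tm.sort _ => some (Tm.pi A B)
                      | _ => none
                  | none => none
              | none => none
          | _ => none
      | none => none

theorem typ_red_type {S : Type*} {P : Spec S} {Γ : List (Tm S)} {M T T' : Tm S}
    (h : Typ P Γ M T) (hs : Relation.ReflTransGen Step T T') : Typ P Γ M T' := by
  rcases h.validity with ⟨s, rfl⟩ | ⟨s, hs'⟩
  · rw [steps_sort hs]; exact h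
  · exact .conv h (typ_red hs' hs) (steps_betaEq hs)

theorem infer_sound : ∀ (n : ℕ) {Γ : List (Tm (Fin 3))} {M T : Tm (Fin 3)},
    Wf girard Γ → infer n Γ M = some T → Typ girard Γ M T := by
  intro n
  induction n with
  | zero => intro Γ M T _ h; simp [infer] at h
  | succ n ih =>
    intro Γ M T hΓ h
    cases M with
    | var i => exact hΓ.varTyp (look?_sound _ _ _ h)
    | sort s =>
      simp only [infer] at h
      split at h
      · cases h; exact hΓ.axTyp rfl
      · cases h
    | app f a =>
      simp only [infer] at h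
      split at h
      · next T0 A' e1 e2 =>
        split at h
        · next A B e =>
          split at h
          · next hq =>
            cases h
            have hf := typ_red_type (ih hΓ e1) (e ▸ nfb_steps 60 T0)
            have ha := ih hΓ e2
            obtain ⟨s₁, s₂, hA, -⟩ := hf.typeOfPi
            refine .appl hf (.conv ha hA ?_)
            exact beq_trans (steps_betaEq (nfb_steps 60 A'))
              (teq_sound _ _ hq ▸ beq_symm (steps_betaEq (nfb_steps 60 A)))
          · cases h
        · cases h
      · cases h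
    | pi A B =>
      simp only [infer] at h
      split at h
      · next T0 e1 =>
        split at h
        · next s₁ e =>
          have hA := typ_red_type (ih hΓ e1) (e ▸ nfb_steps 60 T0)
          split at h
          · next U e2 =>
            split at h
            · next s₂ e' =>
              have hB := typ_red_type (ih (.cons hΓ hA) e2) (e' ▸ nfb_steps 60 U)
              split at h
              · next hr => cases h; exact .prod hA hB ⟨rfl, hr⟩
              · cases h
            · cases h
          · cases h
        · cases h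
      · cases h
    | lam A M =>
      simp only [infer] at h
      split at h
      · next T0 e1 =>
        split at h
        · next s₁ e =>
          have hA := typ_red_type (ih hΓ e1) (e ▸ nfb_steps 60 T0)
          split at h
          · next B e2 =>
            split at h
            · next U e3 =>
              split at h
              · next s e' =>
                cases h
                exact .abst (ih (.cons hΓ hA) e2) (typ_red_type (ih hΓ e3) (e' ▸ nfb_steps 60 U))
              · cases h
            · cases h
          · cases h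
        · cases h
      · cases h

namespace Paradox

/-- Star. -/
def ks : Tm (Fin 3) := Tm.sort 0
/-- Powerset. -/
def pw (X : Tm (Fin 3)) : Tm (Fin 3) := Tm.pi X ks
/-- Non-dependent function type. -/
def arrow (A B : Tm (Fin 3)) : Tm (Fin 3) := Tm.pi A (sh B)
/-- Variables. -/
def v (i : ℕ) : Tm (Fin 3) := Tm.var i
/-- Hurkens's universe. -/
def univ : Tm (Fin 3) :=
  Tm.pi (Tm.sort 1) (arrow (arrow (pw (pw (v 0))) (v 0)) (pw (pw (v 0))))
/-- Hurkens's map from double powersets to the universe. -/
def tau : Tm (Fin 3) :=
  Tm.lam (pw (pw univ)) (Tm.lam (Tm.sort 1) (Tm.lam (arrow (pw (pw (v 0))) (v 0))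
    (Tm.lam (pw (v 1)) (Tm.app (v 3)
      (Tm.lam univ (Tm.app (v 1) (Tm.app (v 2) (Tm.app (Tm.app (v 0) (v 3)) (v 2)))))))))
/-- Hurkens's map from the universe to double powersets. -/
def sig : Tm (Fin 3) := Tm.lam univ (Tm.app (Tm.app (v 0) univ) tau)
/-- `tau (sig y)`. -/
def ts (y : Tm (Fin 3)) : Tm (Fin 3) := Tm.app tau (Tm.app sig y)
/-- The inductive predicates. -/
def fa (p : Tm (Fin 3)) : Tm (Fin 3) :=
  Tm.pi univ (arrow (Tm.app (Tm.app sig (v 0)) (sh p)) (Tm.app (sh p) (v 0)))
/-- Closure of the predicates containing `y`. -/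
def qq (y : Tm (Fin 3)) : Tm (Fin 3) :=
  Tm.pi (pw univ) (arrow (Tm.app (Tm.app sig (sh y)) (v 0)) (Tm.app (v 0) (ts (sh y))))
/-- Falsity. -/
def bot : Tm (Fin 3) := Tm.pi ks (v 0)
/-- The paradoxical predicate. -/
def delta : Tm (Fin 3) := Tm.lam univ (arrow (qq (v 0)) bot)
/-- The least fixed point. -/
def omega : Tm (Fin 3) := Tm.app tau (Tm.lam (pw univ) (fa (v 0)))
/-- Proof that every inductive predicate holds at `omega`. -/
def m0 : Tm (Fin 3) :=
  Tm.lam (pw univ) (Tm.lam (fa (v 0))
    (Tm.app (Tm.app (v 0) omega) (Tm.lam univ (Tm.app (v 1) (ts (v 0))))))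
/-- Proof that `delta` is inductive. -/
def m1 : Tm (Fin 3) :=
  Tm.lam univ (Tm.lam (Tm.app (Tm.app sig (v 0)) delta) (Tm.lam (qq (v 1))
    (Tm.app (Tm.app (Tm.app (v 0) delta) (v 1))
      (Tm.lam (pw univ) (Tm.app (v 1) (Tm.lam univ (Tm.app (v 1) (ts (v 0)))))))))
/-- Proof of the closure property at `omega`. -/
def m3 : Tm (Fin 3) :=
  Tm.lam (pw univ) (Tm.app m0 (Tm.lam univ (Tm.app (v 1) (ts (v 0)))))
/-- Hurkens's proof of falsity. -/
def proof : Tm (Fin 3) := Tm.app (Tm.app (Tm.app m0 delta) m1) m3

/-- The check. -/
def check : Bool :=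
  match infer 60 [] proof, infer 5 [] bot with
  | some T, some (Tm.sort _) => teq (nfb 60 T) bot
  | _, _ => false

theorem check_eq : check = true := by decide +kernel

theorem proof_typ : Typ girard [] proof bot := by
  have h := check_eq
  unfold check at h
  split at h
  · next T s e1 e2 =>
    have h1 := infer_sound 60 Wf.nil e1
    exact teq_sound _ _ h ▸ typ_red_type h1 (nfb_steps 60 T)
  · simp at h

end Paradox

variable {S : Type*} {P : Spec S} {r : S → ℤ}

theorem vsp_app_var {Γ : List (Tm S)} {i : ℕ} {T : Tm S}
    (hty : ∀ A B U, Look Γ i U → ¬ BetaEq U (Tm.pi A B)) :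
    ∀ {M a : Tm S}, VSp i M → ¬ Typ P Γ (Tm.app M a) T := by
  intro M a hM h
  induction hM generalizing a T with
  | var =>
    obtain ⟨A, B, hf, -, -⟩ := genApp h
    obtain ⟨U, hU, he⟩ := genVar hf
    exact hty A B U hU he
  | app b _ ih =>
    obtain ⟨A, B, hf, -, -⟩ := genApp h
    exact ih hf

theorem no_normal_bot (hP : Strat P r) {c : S} {N : Tm S} (hN : Normal N) :
    ¬ Typ P [] N (Tm.pi (Tm.sort c) (Tm.var 0)) := by
  intro h
  cases N with
  | var i => obtain ⟨T, hT, -⟩ := genVar h; cases hT
  | sort s => obtain ⟨b, -, he⟩ := genSort' h; exact sort_ne_pi he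
  | pi A B => obtain ⟨_, _, _, -, -, -, he⟩ := genPi' h; exact sort_ne_pi he
  | app f a =>
    obtain ⟨i, hi⟩ := normal_app hP f h hN
    cases hi with
    | app _ hi => exact vsp_app_var (fun A B U hU => by cases hU) hi h
  | lam A M =>
    obtain ⟨B, s, hM, -, he⟩ := h.genLam
    obtain ⟨eA, eB⟩ := betaEq_pi_inv he
    have hM' : Normal M := fun X hX => hN _ (.lamM _ hX)
    cases M with
    | var i =>
      obtain ⟨U, hU, he'⟩ := genVar hM
      cases hU with
      | zero => exact sort_ne_var (beq_trans (beq_symm (eA.ren Nat.succ)) (beq_trans he' eB))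
      | succ _ hU => cases hU
    | sort s => obtain ⟨b, -, he'⟩ := genSort' hM; exact sort_ne_var (beq_trans he' eB)
    | pi A' B' =>
      obtain ⟨_, _, _, -, -, -, he'⟩ := genPi' hM
      exact sort_ne_var (beq_trans he' eB)
    | lam A' M' =>
      obtain ⟨B', _, -, -, he'⟩ := hM.genLam
      exact pi_ne_var (beq_trans he' eB)
    | app f a =>
      obtain ⟨i, hi⟩ := normal_app hP f hM hM'
      cases hi with
      | app _ hi =>
        refine vsp_app_var (fun A' B' U hU he' => ?_) hi hM
        cases hU with
        | zero => exact sort_ne_pi (beq_trans (beq_symm (eA.ren Nat.succ)) he')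
        | succ _ hU => cases hU

/-- A copy of Girard's system is not weakly normalizing. -/
theorem not_wn_of_quad (hP : Strat P r) {c : S} (h : Quad P c) : ¬ WeaklyNormalizing P := by
  obtain ⟨c₁, c₂, a1, a2, r1, r2, r3, r4⟩ := h
  intro hw
  have key : Typ P [] (tmap ![c, c₁, c₂] Paradox.proof) (Tm.pi (Tm.sort c) (Tm.var 0)) := by
    refine tmap_typ (P := girard) (Q := P) ![c, c₁, c₂] ?_ ?_ Paradox.proof_typ
    · rintro ⟨a, ha⟩ ⟨b, hb⟩ hab
      simp only [girard] at hab
      interval_cases a <;> interval_cases b <;> (try omega) <;> assumption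
    · rintro ⟨a, ha⟩ ⟨b, hb⟩ d hab
      obtain ⟨rfl, h2, h3⟩ := hab
      simp only at h2 h3
      interval_cases a <;> interval_cases b <;> (try omega) <;> assumption
  obtain ⟨N, hN, hn⟩ := hw _ ⟨_, _, .inl key⟩
  exact no_normal_bot hP hn (typ_red key hN)

end Vale.Agent.P340S
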