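import Vale.Agent.P340S.Shape

namespace Vale.Agent.P340S

open Vale.Agent.P340 Vale.Agent.P340.Tm
open Classical

variable {S : Type*}

/-- Values of constructor skeletons: a candidate, the candidate of the last argument, and the
sort at the head. -/
abbrev Val3 (S : Type*) := Cand S × Cand S × Option S

/-- Value of a variable with candidate `C`. -/
def v3 (C : Cand S) : Val3 S := (C, Cand.top, none)

/-- Value of a constructor skeleton when constructors take no constructor arguments. -/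
noncomputable def V3 (c c₁ : S) : (ℕ → Val3 S) → Tm S → Val3 S
  | ξ, Tm.var i => ξ i
  | _, Tm.sort s => (Cand.top, Cand.top, some s)
  | ξ, Tm.app f a => ((V3 c c₁ ξ f).1, (V3 c c₁ ξ a).1, (V3 c c₁ ξ f).2.2)
  | ξ, Tm.lam _ M => v3 (V3 c c₁ (scons (v3 Cand.top) ξ) M).1
  | ξ, Tm.pi A B =>
      match (V3 c c₁ ξ A).2.2 with
      | none => v3 Cand.top
      | some d => v3 (if d = c then
            .arrow (V3 c c₁ ξ A).2.1 (V3 c c₁ (scons (v3 Cand.top) ξ) B).1
          else if d = c₁ then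
            .inter fun C => .skip c (V3 c c₁ (scons (v3 C) ξ) B).1
          else .skip c (V3 c c₁ (scons (v3 Cand.top) ξ) B).1)

theorem scons_comp {α : Type*} (a : α) (ξ : ℕ → α) (f : ℕ → ℕ) :
    (fun i => scons a ξ (up f i)) = scons a (fun i => ξ (f i)) := by
  funext i; cases i <;> rfl

theorem V3_ren (c c₁ : S) : ∀ (u : Tm S) (f : ℕ → ℕ) (ξ : ℕ → Val3 S),
    V3 c c₁ ξ (Tm.ren f u) = V3 c c₁ (fun i => ξ (f i)) u := by
  intro u
  induction u with
  | var i => intros; rfl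
  | sort s => intros; rfl
  | app g a ihg iha => intro f ξ; simp only [Tm.ren, V3, ihg, iha]
  | lam A M _ ihM => intro f ξ; simp only [Tm.ren, V3, ihM, scons_comp]
  | pi A B ihA ihB => intro f ξ; simp only [Tm.ren, V3, ihA, ihB, scons_comp]

theorem V3_ups (c c₁ : S) (a : Val3 S) (ξ : ℕ → Val3 S) (ρ : ℕ → Tm S) :
    (fun i => V3 c c₁ (scons a ξ) (ups ρ i)) = scons a (fun i => V3 c c₁ ξ (ρ i)) := by
  funext i; cases i with
  | zero => rfl
  | succ i => exact V3_ren c c₁ (ρ i) Nat.succ _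

theorem V3_sub (c c₁ : S) : ∀ (u : Tm S) (ρ : ℕ → Tm S) (ξ : ℕ → Val3 S),
    V3 c c₁ ξ (Tm.sub ρ u) = V3 c c₁ (fun i => V3 c c₁ ξ (ρ i)) u := by
  intro u
  induction u with
  | var i => intros; rfl
  | sort s => intros; rfl
  | app g a ihg iha => intro f ξ; simp only [Tm.sub, V3, ihg, iha]
  | lam A M _ ihM => intro f ξ; simp only [Tm.sub, V3, ihM, V3_ups]
  | pi A B ihA ihB => intro f ξ; simp only [Tm.sub, V3, ihA, ihB, V3_ups]

variable {P : Spec S} {r : S → ℤ} {c c₁ : S}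

theorem agree_scons (hP : Strat P r) {Γ : List (Tm S)} {A : Tm S} {ξ ξ' : ℕ → Val3 S}
    (h : ∀ i, Cls P Γ (Tm.var i) c₁ → (ξ i).1 = (ξ' i).1) (a : Val3 S) :
    ∀ i, Cls P (A :: Γ) (Tm.var i) c₁ → (scons a ξ i).1 = (scons a ξ' i).1 := by
  intro i hi
  cases i with
  | zero => rfl
  | succ i => exact h i (var_cls_succ hP hi)

theorem V3_congr (hP : Strat P r) : ∀ (M : Tm S) {Γ : List (Tm S)} (ξ ξ' : ℕ → Val3 S),
    Cls P Γ M c₁ → (∀ i, Cls P Γ (Tm.var i) c₁ → (ξ i).1 = (ξ' i).1) →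
    (V3 c c₁ ξ (sk P c₁ Γ M)).1 = (V3 c c₁ ξ' (sk P c₁ Γ M)).1 := by
  intro M
  induction M with
  | var i => intro Γ ξ ξ' h hh; exact hh i h
  | sort s => intros; rfl
  | app f a ihf _ => intro Γ ξ ξ' h hh; exact ihf ξ ξ' (cls_app hP h).1 hh
  | lam A M _ ihM =>
    intro Γ ξ ξ' h hh
    obtain ⟨B, d, hM, hA, hB, -⟩ := cls_lam hP h
    exact ihM _ _ ⟨B, hM, hB⟩ (agree_scons hP hh _)
  | pi A B ihA ihB =>
    intro Γ ξ ξ' h hh
    obtain ⟨d, e, hA, hB, -, -, hBc⟩ := cls_pi hP h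
    have eA : (V3 c c₁ ξ (if Cls P Γ A c₁ then sk P c₁ Γ A else Tm.sort c₁)).1 =
        (V3 c c₁ ξ' (if Cls P Γ A c₁ then sk P c₁ Γ A else Tm.sort c₁)).1 := by
      by_cases hc : Cls P Γ A c₁
      · rw [if_pos hc]; exact ihA _ _ hc hh
      · rw [if_neg hc]; rfl
    have eB : ∀ a, (V3 c c₁ (scons a ξ) (sk P c₁ (A :: Γ) B)).1 =
        (V3 c c₁ (scons a ξ') (sk P c₁ (A :: Γ) B)).1 :=
      fun a => ihB _ _ hBc (agree_scons hP hh _)
    simp only [sk, V3, eA, eB]

theorem V3_inst (hP : Strat P r) {Γ : List (Tm S)} {A M N : Tm S} (h : Cls P (A :: Γ) M c₁)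
    (hN : Typ P Γ N A) (ξ : ℕ → Val3 S) (x : Val3 S)
    (hx : Cls P (A :: Γ) (Tm.var 0) c₁ → x.1 = (V3 c c₁ ξ (sk P c₁ Γ N)).1) :
    (V3 c c₁ ξ (sk P c₁ Γ (inst M N))).1 = (V3 c c₁ (scons x ξ) (sk P c₁ (A :: Γ) M)).1 := by
  rw [sk_inst (ρ := scons (sk P c₁ Γ N) Tm.var) hP h hN (fun _ => rfl) (fun i => rfl), V3_sub]
  refine V3_congr hP M _ _ h fun i hi => ?_
  cases i with
  | zero => exact (hx hi).symm
  | succ i => rfl

theorem V3_step (hP : Strat P r) (hno : ¬ P.rule c₁ c₁ c₁) {M M' : Tm S} (hs : Step M M') :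
    ∀ {Γ : List (Tm S)} (ξ : ℕ → Val3 S), Cls P Γ M c₁ →
      (V3 c c₁ ξ (sk P c₁ Γ M)).1 = (V3 c c₁ ξ (sk P c₁ Γ M')).1 := by
  induction hs with
  | beta A P0 N =>
    intro Γ ξ h
    obtain ⟨hl, A', B', d', hf, hN, -, -, -⟩ := cls_app hP h
    obtain ⟨B, d, hM, hA, hB, hr⟩ := cls_lam hP hl
    obtain ⟨B0, s0, -, -, he⟩ := hf.genLam
    have hNA : Typ P Γ N A := .conv hN hA (beq_symm (betaEq_pi_inv he).1)
    rw [V3_inst (c := c) hP ⟨B, hM, hB⟩ hNA ξ (v3 Cand.top) fun h1 => ?_]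
    · rfl
    · have h0 : Cls P (A :: Γ) (Tm.var 0) d := ⟨_, .start hA, .weak hA hA⟩
      obtain rfl := h0.unique hP h1
      exact (hno hr).elim
  | appL a _ ih => intro Γ ξ h; exact ih ξ (cls_app hP h).1
  | appR f _ _ => intros; rfl
  | @lamA A A' M hs _ =>
    intro Γ ξ h
    obtain ⟨B, d, hM, hA, hB, -⟩ := cls_lam hP h
    simp only [sk, V3, sk_conv hP ⟨B, hM, hB⟩ hA (hA.step hs) (beq_symm (.rel _ _ hs))]
  | @lamM A M M' _ ih =>
    intro Γ ξ h
    obtain ⟨B, d, hM, hA, hB, -⟩ := cls_lam hP h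
    exact ih _ ⟨B, hM, hB⟩
  | @piA A A' B hs ih =>
    intro Γ ξ h
    obtain ⟨d, e, hA, hB, -, -, hBc⟩ := cls_pi hP h
    have hA' := hA.step hs
    have he : BetaEq A' A := beq_symm (.rel _ _ hs)
    have eA : (V3 c c₁ ξ (if Cls P Γ A c₁ then sk P c₁ Γ A else Tm.sort c₁)).1 =
        (V3 c c₁ ξ (if Cls P Γ A' c₁ then sk P c₁ Γ A' else Tm.sort c₁)).1 := by
      by_cases hc : Cls P Γ A c₁
      · rw [if_pos hc, if_pos ((cls_step_iff hP hA hs).2 hc)]; exact ih ξ hc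
      · rw [if_neg hc, if_neg (mt (cls_step_iff hP hA hs).1 hc)]
    simp only [sk, V3, dsort_eq hP hA, dsort_eq hP hA', dsort_eq hP hB,
      dsort_eq hP (hB.convCtx hA hA' he), sk_conv hP hBc hA hA' he, eA]
  | @piB A B B' hs ih =>
    intro Γ ξ h
    obtain ⟨d, e, hA, hB, -, -, hBc⟩ := cls_pi hP h
    simp only [sk, V3, dsort_eq hP hA, dsort_eq hP hB, dsort_eq hP (hB.step hs)]
    simp only [fun a => ih (scons a ξ) hBc]

theorem V3_steps (hP : Strat P r) (hno : ¬ P.rule c₁ c₁ c₁) {Γ : List (Tm S)} {M M' : Tm S}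
    (ξ : ℕ → Val3 S) (h : Cls P Γ M c₁) (hs : Relation.ReflTransGen Step M M') :
    (V3 c c₁ ξ (sk P c₁ Γ M)).1 = (V3 c c₁ ξ (sk P c₁ Γ M')).1 := by
  induction hs with
  | refl => rfl
  | tail h' hs ih => exact ih.trans (V3_step hP hno hs ξ (h.steps h'))

theorem v3_scons (C : Cand S) (e : ℕ → Cand S) :
    (fun i => v3 (scons C e i)) = scons (v3 C) fun i => v3 (e i) := by
  funext i; cases i <;> rfl

/-- The model when constructors cannot take constructor arguments. -/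
noncomputable def polyModel (hP : Strat P r) (hax : P.ax c c₁) (hno : ¬ P.rule c₁ c₁ c₁) :
    Model P c where
  Env _ := ℕ → Cand S
  I Γ e T := (V3 c c₁ (fun i => v3 (e i)) (sk P c₁ Γ T)).1
  init _ _ := ⟨fun _ => Cand.top⟩
  conv Γ e T T' h h' he := by
    obtain ⟨d, h1, h2⟩ := betaEq_join he
    rw [V3_steps hP hno _ (cls_of_sorted h hax) h1, V3_steps hP hno _ (cls_of_sorted h' hax) h2]
  ext Γ A d e hA := ⟨scons Cand.top e, fun T hT => by
    show (V3 c c₁ _ (sk P c₁ _ (Tm.ren Nat.succ T))).1 = _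
    rw [sk_ren hP T (cls_of_sorted hT hax) (.cons hA.wf hA) (RenTy.succ A Γ), V3_ren]
    rfl⟩
  app Γ A B a d e hA hB hr ha t u ht hu hu' := by
    have h0 : Cls P (A :: Γ) (Tm.var 0) d := ⟨_, .start hA, .weak hA hA⟩
    simp only [sk, dsort_eq hP hA, V3] at ht
    by_cases hd : d = c
    · subst hd
      rw [V3_inst hP (cls_of_sorted hB hax) ha _ (v3 Cand.top) fun h1 => by
        obtain rfl := h0.unique hP h1
        have := hP.axRank _ _ hax
        omega]
      rw [if_pos rfl, if_pos (cls_of_sorted hA hax)] at ht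
      exact ht u (hu rfl)
    · rw [hu' hd]
      simp only [v3, if_neg hd] at ht
      by_cases hd1 : d = c₁
      · subst hd1
        simp only [if_true] at ht
        rw [V3_inst hP (cls_of_sorted hB hax) ha _
          (v3 (V3 c d (fun i => v3 (e i)) (sk P d Γ a)).1) fun _ => rfl]
        exact ht.2 _
      · simp only [if_neg hd1] at ht
        rw [V3_inst hP (cls_of_sorted hB hax) ha _ (v3 Cand.top)
          fun h1 => (hd1 (h0.unique hP h1)).elim]
        exact ht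
  lam Γ A B d e hA hB hr l M hl hMs h := by
    have hext : ∀ C T, Typ P Γ T (Tm.sort c) →
        (V3 c c₁ (fun i => v3 (scons C e i)) (sk P c₁ (A :: Γ) (sh T))).1 =
          (V3 c c₁ (fun i => v3 (e i)) (sk P c₁ Γ T)).1 := fun C T hT => by
      show (V3 c c₁ _ (sk P c₁ _ (Tm.ren Nat.succ T))).1 = _
      rw [sk_ren hP T (cls_of_sorted hT hax) (.cons hA.wf hA) (RenTy.succ A Γ), V3_ren]
      rfl
    have hB' : ∀ C, (V3 c c₁ (fun i => v3 (scons C e i)) (sk P c₁ (A :: Γ) B)).1 =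
        (V3 c c₁ (scons (v3 C) fun i => v3 (e i)) (sk P c₁ (A :: Γ) B)).1 :=
      fun C => by rw [v3_scons]
    simp only [sk, dsort_eq hP hA, V3]
    by_cases hd : d = c
    · subst hd
      rw [if_pos rfl, if_pos (cls_of_sorted hA hax)]
      refine Cand.lam_arrow hl fun u hu => ?_
      rw [← hB']
      exact h (scons Cand.top e) (hext _) u (fun _ => by rw [hext _ A hA]; exact hu)
        (fun h' => absurd rfl h')
    · simp only [v3, if_neg hd]
      by_cases hd1 : d = c₁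
      · subst hd1
        simp only [if_true]
        refine ⟨SAcc.lam hl hMs, fun C => Cand.lam_skip hl ?_⟩
        show (V3 c d (scons (v3 C) fun i => v3 (e i)) (sk P d (A :: Γ) B)).1.mem _
        rw [← hB']
        exact h (scons C e) (hext _) _ (fun h' => absurd h' hd) fun _ => rfl
      · simp only [if_neg hd1]
        refine Cand.lam_skip hl ?_
        show (V3 c c₁ (scons (v3 Cand.top) fun i => v3 (e i)) (sk P c₁ (A :: Γ) B)).1.mem _
        rw [← hB']
        exact h (scons Cand.top e) (hext _) _ (fun h' => absurd h' hd) fun _ => rfl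

end Vale.Agent.P340S
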