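import Vale.Agent.P340S.Inst
import Vale.Agent.P340S.Poly
import Vale.Agent.P340S.Hurkens
import Mathlib.Data.Nat.Pairing
import Mathlib.Data.Fintype.EquivFin
import Mathlib.Algebra.Order.BigOperators.Group.Finset

namespace Vale.Agent.P340S

open Vale.Agent.P340 Vale.Agent.P340.Tm
open Classical

variable {S : Type*}

/-- The specification restricted to a finite set of sorts. -/
def restrict (P : Spec S) (F : Finset S) : Spec S where
  ax a b := P.ax a b ∧ a ∈ F ∧ b ∈ F
  rule a b c := P.rule a b c ∧ a ∈ F ∧ b ∈ F ∧ c ∈ F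

theorem restrict_mono (P : Spec S) {F F' : Finset S} (h : F ⊆ F') {Γ : List (Tm S)} {M B : Tm S}
    (ht : Typ (restrict P F) Γ M B) : Typ (restrict P F') Γ M B := by
  induction ht with
  | sortAx hx => exact .sortAx ⟨hx.1, h hx.2.1, h hx.2.2⟩
  | start _ ih => exact .start ih
  | weak _ _ i1 i2 => exact .weak i1 i2
  | prod _ _ hr i1 i2 => exact .prod i1 i2 ⟨hr.1, h hr.2.1, h hr.2.2.1, h hr.2.2.2⟩
  | abst _ _ i1 i2 => exact .abst i1 i2
  | appl _ _ i1 i2 => exact .appl i1 i2
  | conv _ _ he i1 i2 => exact .conv i1 i2 he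

/-- Every derivation uses finitely many sorts. -/
theorem exists_restrict {P : Spec S} {Γ : List (Tm S)} {M B : Tm S} (h : Typ P Γ M B) :
    ∃ F, Typ (restrict P F) Γ M B := by
  induction h with
  | @sortAx a b hx => exact ⟨{a, b}, .sortAx ⟨hx, by simp, by simp⟩⟩
  | start _ ih => obtain ⟨F, hF⟩ := ih; exact ⟨F, .start hF⟩
  | weak _ _ i1 i2 =>
    obtain ⟨F, hF⟩ := i1
    obtain ⟨F', hF'⟩ := i2
    exact ⟨F ∪ F', .weak (restrict_mono P Finset.subset_union_left hF)
      (restrict_mono P Finset.subset_union_right hF')⟩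
  | @prod Γ A B a b c _ _ hr i1 i2 =>
    obtain ⟨F, hF⟩ := i1
    obtain ⟨F', hF'⟩ := i2
    refine ⟨F ∪ F' ∪ {a, b, c}, .prod
      (restrict_mono P (Finset.subset_union_left.trans Finset.subset_union_left) hF)
      (restrict_mono P (Finset.subset_union_right.trans Finset.subset_union_left) hF')
      ⟨hr, ?_, ?_, ?_⟩⟩ <;> simp
  | abst _ _ i1 i2 =>
    obtain ⟨F, hF⟩ := i1
    obtain ⟨F', hF'⟩ := i2
    exact ⟨F ∪ F', .abst (restrict_mono P Finset.subset_union_left hF)
      (restrict_mono P Finset.subset_union_right hF')⟩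
  | appl _ _ i1 i2 =>
    obtain ⟨F, hF⟩ := i1
    obtain ⟨F', hF'⟩ := i2
    exact ⟨F ∪ F', .appl (restrict_mono P Finset.subset_union_left hF)
      (restrict_mono P Finset.subset_union_right hF')⟩
  | conv _ _ he i1 i2 =>
    obtain ⟨F, hF⟩ := i1
    obtain ⟨F', hF'⟩ := i2
    exact ⟨F ∪ F', .conv (restrict_mono P Finset.subset_union_left hF)
      (restrict_mono P Finset.subset_union_right hF') he⟩

/-- All sorts of the expression lie in `F`. -/
def SortsIn (F : Finset S) : Tm S → Prop
  | Tm.var _ => True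
  | Tm.sort s => s ∈ F
  | Tm.app f a => SortsIn F f ∧ SortsIn F a
  | Tm.lam A M => SortsIn F A ∧ SortsIn F M
  | Tm.pi A M => SortsIn F A ∧ SortsIn F M

variable {F : Finset S}

theorem sortsIn_ren (M : Tm S) : ∀ f : ℕ → ℕ, SortsIn F (Tm.ren f M) ↔ SortsIn F M := by
  induction M <;> intro f <;> simp_all [SortsIn, Tm.ren]

theorem SortsIn.inst {M N : Tm S} (hM : SortsIn F M) (hN : SortsIn F N) :
    SortsIn F (inst M N) := by
  suffices h : ∀ (M : Tm S) (σ : ℕ → Tm S), SortsIn F M → (∀ i, SortsIn F (σ i)) →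
      SortsIn F (Tm.sub σ M) from h M _ hM fun i => by cases i <;> first | exact hN | trivial
  intro M
  induction M with
  | var i => intro σ _ hσ; exact hσ i
  | sort s => intro σ h _; exact h
  | app f a i1 i2 => intro σ h hσ; exact ⟨i1 σ h.1 hσ, i2 σ h.2 hσ⟩
  | lam A M i1 i2 | pi A M i1 i2 =>
    intro σ h hσ
    refine ⟨i1 σ h.1 hσ, i2 _ h.2 fun i => ?_⟩
    cases i with
    | zero => trivial
    | succ i => exact (sortsIn_ren _ _).2 (hσ i)

theorem typ_sortsIn {P : Spec S} {Γ : List (Tm S)} {M B : Tm S}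
    (h : Typ (restrict P F) Γ M B) : SortsIn F M ∧ SortsIn F B := by
  induction h with
  | sortAx h => exact ⟨h.2.1, h.2.2⟩
  | start _ ih => exact ⟨trivial, (sortsIn_ren _ _).2 ih.1⟩
  | weak _ _ ih _ => exact ⟨(sortsIn_ren _ _).2 ih.1, (sortsIn_ren _ _).2 ih.2⟩
  | prod _ _ hr i1 i2 => exact ⟨⟨i1.1, i2.1⟩, hr.2.2.2⟩
  | abst _ _ i1 i2 => exact ⟨⟨i2.1.1, i1.1⟩, i2.1⟩
  | appl _ _ i1 i2 => exact ⟨⟨i1.1, i2.1⟩, SortsIn.inst i1.2.2 i2.1⟩
  | conv _ _ _ i1 i2 => exact ⟨i1.1, i2.1⟩

/-- The number of a sort in `F`. -/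
noncomputable def idx (F : Finset S) (s : S) : ℕ :=
  if h : s ∈ F then (F.equivFin ⟨s, h⟩ : ℕ) else 0

theorem idx_inj {s t : S} (hs : s ∈ F) (ht : t ∈ F) (h : idx F s = idx F t) : s = t := by
  simp only [idx, dif_pos hs, dif_pos ht, Fin.val_inj, EmbeddingLike.apply_eq_iff_eq,
    Subtype.mk.injEq] at h
  exact h

/-- A numbering of expressions. -/
noncomputable def code (F : Finset S) : Tm S → ℕ
  | Tm.var i => Nat.pair 0 i
  | Tm.sort s => Nat.pair 1 (idx F s)
  | Tm.app f a => Nat.pair 2 (Nat.pair (code F f) (code F a))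
  | Tm.lam f a => Nat.pair 3 (Nat.pair (code F f) (code F a))
  | Tm.pi f a => Nat.pair 4 (Nat.pair (code F f) (code F a))

theorem code_inj : ∀ (M N : Tm S), SortsIn F M → SortsIn F N → code F M = code F N → M = N := by
  intro M
  induction M with
  | var i => intro N _ _ h; cases N <;> simp_all [code, Nat.pair_eq_pair]
  | sort s =>
    intro N hM hN h
    cases N <;> simp [code, Nat.pair_eq_pair] at h
    rw [idx_inj hM hN h]
  | app f a i1 i2 | lam f a i1 i2 | pi f a i1 i2 =>
    intro N hM hN h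
    cases N <;> simp [code, Nat.pair_eq_pair] at h
    rw [i1 _ hM.1 hN.1 h.1, i2 _ hM.2 hN.2 h.2]

theorem exists_cover (P : Spec S) (F : Finset S) : ∃ e, Cover (restrict P F) e := by
  refine ⟨fun m => if h : ∃ A, SortsIn F A ∧ code F A = m.unpair.1 then Classical.choose h
    else Tm.var 0, fun n A hA => ?_⟩
  obtain ⟨f, Γ, s, hA⟩ := hA
  have hs : SortsIn F A := (sortsIn_ren A f).1 (typ_sortsIn hA).1
  refine ⟨Nat.pair (code F A) n, Nat.right_le_pair _ _, ?_⟩
  have h : ∃ A', SortsIn F A' ∧ code F A' = (Nat.pair (code F A) n).unpair.1 :=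
    ⟨A, hs, by simp⟩
  dsimp only
  rw [dif_pos h]
  have h' := Classical.choose_spec h
  exact code_inj _ _ h'.1 hs (by simpa using h'.2)

variable {P : Spec S} {r : S → ℤ}

theorem Strat.restrict (hP : Strat P r) (F : Finset S) : Strat (P340S.restrict P F) r where
  axFun a b b' h h' := hP.axFun a b b' h.1 h'.1
  axRank a b h := hP.axRank a b h.1
  codom a b c h := hP.codom a b c h.1
  ruleRank a b c h := hP.ruleRank a b c h.1

theorem quad_of_restrict {c : S} (h : Quad (restrict P F) c) : Quad P c := by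
  obtain ⟨c₁, c₂, a1, a2, r1, r2, r3, r4⟩ := h
  exact ⟨c₁, c₂, a1.1, a2.1, r1.1, r2.1, r3.1, r4.1⟩

theorem class_sn (hP : Strat P r) (hq : ∀ c, ¬ Quad P c) {e : ℕ → Tm S} (hc : Cover P e)
    {c : S} (hi : Hi P r c) {Γ : List (Tm S)} {M : Tm S} (h : Cls P Γ M c) : SAcc M := by
  by_cases h1 : P.rule c c c
  swap
  · exact sn_no_arrow hP hi h1 h
  by_cases h2 : ∃ c₁, P.ax c c₁ ∧ P.rule c₁ c c
  swap
  · exact (shapeModel hP (fun _ _ hT => dom_sn hP hi hT le_rfl)
      (fun k hk hr => h2 ⟨k, hk, hr⟩)).sn hP hi h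
  obtain ⟨c₁, hax, h3⟩ := h2
  by_cases h4 : P.rule c₁ c₁ c₁
  swap
  · exact (polyModel hP hax h4).sn hP hi h
  exact (instModel (e := e) ⟨hP, hax,
    fun k hk hr => hq c ⟨c₁, k, hax, hk, h1, h3, h4, hr⟩, hi, hc⟩).sn hP hi h

theorem restrict_class_sn (hP : Strat P r) (hq : ∀ c, ¬ Quad P c) (F : Finset S)
    (c : S) (Γ : List (Tm S)) (M : Tm S) (h : Cls (restrict P F) Γ M c) : SAcc M := by
  obtain ⟨e, he⟩ := exists_cover P F
  suffices key : ∀ (n : ℕ) (c : S), (∑ s ∈ F, |r s|) + 1 ≤ r c + n →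
      ∀ (Γ : List (Tm S)) (M : Tm S), Cls (restrict P F) Γ M c → SAcc M from
    key ((∑ s ∈ F, |r s|) + 1 - r c).toNat c (by omega) Γ M h
  intro n
  induction n with
  | zero =>
    intro c hc Γ M hM
    obtain ⟨T, -, hT⟩ := hM
    have hcF : c ∈ F := (typ_sortsIn hT).2
    have := Finset.single_le_sum (f := fun s => |r s|) (fun s _ => abs_nonneg (r s)) hcF
    have := le_abs_self (r c)
    omega
  | succ n ih =>
    intro c hc Γ M hM
    exact class_sn (hP.restrict F) (fun d hd => hq d (quad_of_restrict hd)) he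
      (fun d hd Γ' M' hM' => ih d (by push_cast at hc; omega) Γ' M' hM') hM

theorem typ_sn (hP : Strat P r) (hq : ∀ c, ¬ Quad P c) {Γ : List (Tm S)} {M B : Tm S}
    (h : Typ P Γ M B) : SAcc M := by
  obtain ⟨F, hF⟩ := exists_restrict h
  rcases cls_or_top hF with ⟨c, hc⟩ | ⟨s, hs⟩
  · exact restrict_class_sn hP hq F c Γ M hc
  · exact top_sn (hP.restrict F) (c := s) (fun d _ => restrict_class_sn hP hq F d) M hs le_rfl

theorem sn_of_no_quad (hP : Strat P r) (hq : ∀ c, ¬ Quad P c) : StronglyNormalizing P := by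
  rintro M ⟨Γ, B, h | h⟩
  · exact (typ_sn hP hq h).noSeq
  · rcases h.validity with ⟨s, rfl⟩ | ⟨s, hs⟩
    · exact (SAcc.sort s).noSeq
    · exact (typ_sn hP hq hs).noSeq

theorem sacc_of_snTm {M : Tm S} (h : SNTm M) : SAcc M := by
  by_contra hM
  have step : ∀ x : {X : Tm S // ¬ SAcc X}, ∃ y : {X : Tm S // ¬ SAcc X}, Step x.1 y.1 := by
    rintro ⟨x, hx⟩
    by_contra hne
    exact hx ⟨x, fun y hy => by_contra fun hy' => hne ⟨⟨y, hy'⟩, hy⟩⟩
  choose g hg using step
  exact h ⟨fun n => (g^[n] ⟨M, hM⟩).1, rfl, fun n => by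
    dsimp only; rw [Function.iterate_succ_apply']; exact hg _⟩

theorem wn_of_sn (h : StronglyNormalizing P) : WeaklyNormalizing P :=
  fun M hM => sacc_wn (sacc_of_snTm (h M hM))

/-- The criterion. -/
theorem criterion (hP : Strat P r) :
    (WeaklyNormalizing P ↔ StronglyNormalizing P) ∧
      (StronglyNormalizing P ↔ ∀ c, ¬ Quad P c) :=
  ⟨⟨fun hw => sn_of_no_quad hP fun _ hc => not_wn_of_quad hP hc hw, wn_of_sn⟩,
    ⟨fun hs _ hc => not_wn_of_quad hP hc (wn_of_sn hs), sn_of_no_quad hP⟩⟩

/-- Generalized nondependent specifications: axioms are functional and acyclic, products take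
the sort of their codomain, and the domain sort is reached from the codomain sort by axioms. -/
structure GenNondep (P : Spec S) : Prop where
  axFun : ∀ a b b', P.ax a b → P.ax a b' → b = b'
  acyclic : ∀ a, ¬ Relation.TransGen P.ax a a
  codom : ∀ a b c, P.rule a b c → c = b
  above : ∀ a b c, P.rule a b c → Relation.ReflTransGen P.ax b a

/-- Paths of a given length. -/
inductive Path (P : Spec S) : ℕ → S → S → Prop where
  | zero (a : S) : Path P 0 a a
  | succ {n : ℕ} {a b c : S} : P.ax a b → Path P n b c → Path P (n + 1) a c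

theorem Path.trans {m n : ℕ} {a b c : S} (h : Path P m a b) (h' : Path P n b c) :
    Path P (m + n) a c := by
  induction h with
  | zero a => simpa using h'
  | succ hx _ ih => rw [Nat.add_right_comm]; exact .succ hx (ih h')

theorem Path.split (hP : GenNondep P) {m : ℕ} {a b : S} (h : Path P m a b) :
    ∀ {k : ℕ} {c : S}, Path P k a c → m ≤ k → Path P (k - m) b c := by
  induction h with
  | zero a => intro k c h' _; exact h'
  | succ hx _ ih =>
    intro k c h' hk
    cases h' with
    | zero => omega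
    | succ hx' h' =>
      obtain rfl := hP.axFun _ _ _ hx' hx
      simpa using ih h' (by omega)

theorem Path.transGen {n : ℕ} {a b : S} (h : Path P n a b) (hn : 0 < n) :
    Relation.TransGen P.ax a b := by
  induction h with
  | zero a => omega
  | @succ n a b c hx h' ih =>
    cases n with
    | zero => cases h'; exact .single hx
    | succ n => exact Relation.TransGen.head hx (ih (Nat.succ_pos _))

theorem Path.unique (hP : GenNondep P) {m n : ℕ} {a b : S} (h : Path P m a b)
    (h' : Path P n a b) : m = n := by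
  by_contra hne
  rcases Nat.lt_or_ge m n with hlt | hge
  · exact hP.acyclic b ((h.split hP h' hlt.le).transGen (by omega))
  · exact hP.acyclic b ((h'.split hP h hge).transGen (by omega))

theorem meet (hP : GenNondep P) {x y : S} (h : Relation.EqvGen P.ax x y) :
    ∃ z m n, Path P m x z ∧ Path P n y z := by
  induction h with
  | rel x y h => exact ⟨y, 1, 0, .succ h (.zero y), .zero y⟩
  | refl x => exact ⟨x, 0, 0, .zero x, .zero x⟩
  | symm x y _ ih => obtain ⟨z, m, n, h1, h2⟩ := ih; exact ⟨z, n, m, h2, h1⟩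
  | trans x y w _ _ i1 i2 =>
    obtain ⟨z, m, n, h1, h2⟩ := i1
    obtain ⟨z', n', k, h2', h3⟩ := i2
    rcases Nat.le_total n n' with hle | hle
    · exact ⟨z', m + (n' - n), k, h1.trans (h2.split hP h2' hle), h3⟩
    · exact ⟨z, m, k + (n - n'), h1, h3.trans (h2'.split hP h2 hle)⟩

/-- The representative of the connected component. -/
noncomputable def root (P : Spec S) (x : S) : S :=
  (Quotient.mk (Relation.EqvGen.setoid P.ax) x).out

theorem root_rel (x : S) : Relation.EqvGen P.ax x (root P x) :=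
  .symm _ _ (Quotient.mk_out (s := Relation.EqvGen.setoid P.ax) x)

theorem root_eq {x y : S} (h : Relation.EqvGen P.ax x y) : root P x = root P y := by
  rw [root, root, Quotient.sound (s := Relation.EqvGen.setoid P.ax) h]

/-- A generalized nondependent specification is stratified. -/
theorem GenNondep.exists_strat (hP : GenNondep P) : ∃ r, Strat P r := by
  choose z m n hm hn using fun x => meet hP (root_rel (P := P) x)
  have uniq : ∀ x w i j, Path P i x w → Path P j (root P x) w →
      (n x : ℤ) - m x = (j : ℤ) - i := by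
    intro x w i j hi hj
    rcases Nat.le_total (n x) j with hle | hle
    · have := Path.unique hP ((hm x).trans ((hn x).split hP hj hle)) hi
      omega
    · have := Path.unique hP (hi.trans (hj.split hP (hn x) hle)) (hm x)
      omega
  have step : ∀ a b, P.ax a b → (n b : ℤ) - m b = (n a : ℤ) - m a + 1 := by
    intro a b h
    have := uniq a (z b) (m b + 1) (n b) (.succ h (hm b))
      (root_eq (Relation.EqvGen.rel _ _ h) ▸ hn b)
    omega
  refine ⟨fun x => (n x : ℤ) - m x, hP.axFun, step, hP.codom, fun a b c h => ?_⟩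
  have key : ∀ {a b}, Relation.ReflTransGen P.ax b a →
      a = b ∨ (n b : ℤ) - m b < (n a : ℤ) - m a := by
    intro a b h
    induction h with
    | refl => exact .inl rfl
    | @tail u v _ huv ih =>
      right
      have := step u v huv
      rcases ih with rfl | hlt <;> omega
  exact key (hP.above a b c h)

end Vale.Agent.P340S
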