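import Vale.Agent.P340S.World

namespace Vale.Agent.P340S

open Vale.Agent.P340 Vale.Agent.P340.Tm
open Classical

universe u

variable {S : Type u}

/-- Values of constructors of a given shape. -/
def Val (S : Type u) : Sh → Type u
  | .u => PUnit.{u+1}
  | .o => Cand S
  | .arr a b => Val S a → Val S b
  | .skip b => Tm S → Val S b

/-- A default value. -/
def dflt : (h : Sh) → Val S h
  | .u => PUnit.unit
  | .o => Cand.top
  | .arr _ b => fun _ => dflt b
  | .skip b => fun _ => dflt b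

/-- A value of shape `a`, seen at every shape. -/
noncomputable def cast' (a : Sh) (v : Val S a) (h : Sh) : Val S h :=
  if e : a = h then e ▸ v else dflt h

theorem cast'_self (a : Sh) (v : Val S a) : cast' a v a = v := by
  simp [cast']

/-- The intersection of a family of candidates over the values of a shape. -/
noncomputable def interVal (k : Sh) (F : (∀ h, Val S h) → Cand S) : Cand S :=
  Cand.inter fun v : Val S k => F (cast' k v)

/-- A variable of the global context of the given type. -/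
noncomputable def fresh (P : Spec S) (e : ℕ → Tm S) (T : Tm S) : Tm S :=
  if h : ∃ i, G P e (Tm.var i) T then Tm.var (Classical.choose h) else Tm.var 0

/-- The shape of a kind of the global context. -/
noncomputable def gshape (P : Spec S) (e : ℕ → Tm S) (c c₁ : S) (K : Tm S) : Sh :=
  if h : ∃ n, GN P e n K (Tm.sort c₁) then
    shape P c₁ c (U P e (Classical.choose h))
      (Tm.ren (lv (U P e (Classical.choose h)).length) K)
  else .u

/-- The shape of the kind of an expression of the global context, if that is a constructor. -/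
noncomputable def kof (P : Spec S) (e : ℕ → Tm S) (c c₁ : S) (a : Tm S) : Option Sh :=
  if h : ∃ T, G P e a T ∧ G P e T (Tm.sort c₁) then
    some (gshape P e c c₁ (Classical.choose h))
  else none

/-- The value of a constructor under an instance `σ` in the global context and values `ξ` of
its variables. -/
noncomputable def V (P : Spec S) (e : ℕ → Tm S) (c c₁ : S) :
    Tm S → (ℕ → Tm S) → (ℕ → ∀ h, Val S h) → ∀ h, Val S h
  | Tm.var i, _, ξ => ξ i
  | Tm.sort _, _, _ => dflt
  | Tm.app f a, σ, ξ => fun h =>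
      match kof P e c c₁ (Tm.sub σ a) with
      | some k => V P e c c₁ f σ ξ (.arr k h) (V P e c c₁ a σ ξ k)
      | none => V P e c c₁ f σ ξ (.skip h) (nf (Tm.sub σ a))
  | Tm.lam A M, σ, ξ => fun h =>
      match h with
      | .arr a b => fun v =>
          V P e c c₁ M (scons (fresh P e (Tm.sub σ A)) σ) (scons (cast' a v) ξ) b
      | .skip b => fun N =>
          if G P e N (Tm.sub σ A) then V P e c c₁ M (scons N σ) (scons dflt ξ) b else dflt b
      | .u => dflt .u
      | .o => dflt .o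
  | Tm.pi A B, σ, ξ => fun h =>
      match h with
      | .o =>
          if G P e (Tm.sub σ A) (Tm.sort c) then
            Cand.arrow (V P e c c₁ A σ ξ .o)
              (V P e c c₁ B (scons (fresh P e (Tm.sub σ A)) σ) (scons dflt ξ) .o)
          else if G P e (Tm.sub σ A) (Tm.sort c₁) then
            interVal (gshape P e c c₁ (Tm.sub σ A)) fun v => Cand.skip c
              (V P e c c₁ B (scons (fresh P e (Tm.sub σ A)) σ) (scons v ξ) .o)
          else
            Cand.inter fun N : Tm S =>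
              if G P e N (Tm.sub σ A) then
                Cand.skip c (V P e c c₁ B (scons N σ) (scons dflt ξ) .o)
              else Cand.top
      | .u => dflt .u
      | .arr a b => dflt (.arr a b)
      | .skip b => dflt (.skip b)

variable {P : Spec S} {e : ℕ → Tm S} {r : S → ℤ} {c c₁ : S}

theorem scons_up {α : Type*} (a : α) (ξ : ℕ → α) (f : ℕ → ℕ) :
    (fun i => scons a ξ (up f i)) = scons a (fun i => ξ (f i)) := by
  funext i; cases i <;> rfl

theorem V_ren : ∀ (M : Tm S) (f : ℕ → ℕ) (σ : ℕ → Tm S) (ξ : ℕ → ∀ h, Val S h),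
    V P e c c₁ (Tm.ren f M) σ ξ = V P e c c₁ M (fun i => σ (f i)) (fun i => ξ (f i)) := by
  intro M
  induction M with
  | var i => intros; rfl
  | sort s => intros; rfl
  | app g a ihg iha =>
    intro f σ ξ
    simp only [Tm.ren, V, ihg, iha, show ∀ (X : Tm S), Tm.sub σ (Tm.ren f X) =
      Tm.sub (fun i => σ (f i)) X from fun X => sub_ren f σ X]
  | lam A M _ ihM =>
    intro f σ ξ
    funext h
    cases h <;> simp only [Tm.ren, V, ihM, scons_up, show ∀ (X : Tm S), Tm.sub σ (Tm.ren f X) =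
      Tm.sub (fun i => σ (f i)) X from fun X => sub_ren f σ X] <;> rfl
  | pi A B ihA ihB =>
    intro f σ ξ
    funext h
    cases h <;> simp only [Tm.ren, V, ihA, ihB, scons_up, show ∀ (X : Tm S), Tm.sub σ (Tm.ren f X) =
      Tm.sub (fun i => σ (f i)) X from fun X => sub_ren f σ X]

theorem V_sub : ∀ (M : Tm S) (τ σ : ℕ → Tm S) (ξ : ℕ → ∀ h, Val S h),
    V P e c c₁ (Tm.sub τ M) σ ξ =
      V P e c c₁ M (fun i => Tm.sub σ (τ i)) (fun i => V P e c c₁ (τ i) σ ξ) := by
  intro M
  have hs : ∀ (x : Tm S) (τ σ : ℕ → Tm S),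
      (fun i => Tm.sub (scons x σ) (ups τ i)) = scons x (fun i => Tm.sub σ (τ i)) := by
    intro x τ σ; funext i
    cases i with
    | zero => rfl
    | succ i => exact scons_sub_sh x σ (τ i)
  have hv : ∀ (x : Tm S) (v : ∀ h, Val S h) (τ σ : ℕ → Tm S) (ξ : ℕ → ∀ h, Val S h),
      (fun i => V P e c c₁ (ups τ i) (scons x σ) (scons v ξ)) =
        scons v (fun i => V P e c c₁ (τ i) σ ξ) := by
    intro x v τ σ ξ; funext i
    cases i with
    | zero => rfl
    | succ i => exact V_ren (τ i) Nat.succ _ _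
  induction M with
  | var i => intros; rfl
  | sort s => intros; rfl
  | app g a ihg iha =>
    intro τ σ ξ
    simp only [Tm.sub, V, ihg, iha, show ∀ X : Tm S, Tm.sub σ (Tm.sub τ X) =
      Tm.sub (fun i => Tm.sub σ (τ i)) X from fun X => sub_sub τ σ X]
  | lam A M _ ihM =>
    intro τ σ ξ
    funext h
    cases h <;> simp only [Tm.sub, V, ihM, hs, hv, show ∀ X : Tm S, Tm.sub σ (Tm.sub τ X) =
      Tm.sub (fun i => Tm.sub σ (τ i)) X from fun X => sub_sub τ σ X] <;> rfl
  | pi A B ihA ihB =>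
    intro τ σ ξ
    funext h
    cases h <;> simp only [Tm.sub, V, ihA, ihB, hs, hv, show ∀ X : Tm S, Tm.sub σ (Tm.sub τ X) =
      Tm.sub (fun i => Tm.sub σ (τ i)) X from fun X => sub_sub τ σ X]

theorem V_inst (M N : Tm S) (σ : ℕ → Tm S) (ξ : ℕ → ∀ h, Val S h) :
    V P e c c₁ (inst M N) σ ξ =
      V P e c c₁ M (scons (Tm.sub σ N) σ) (scons (V P e c c₁ N σ ξ) ξ) := by
  rw [inst, V_sub]
  congr 1 <;> funext i <;> cases i <;> rfl

theorem beq_app {f f' a a' : Tm S} (hf : BetaEq f f') (ha : BetaEq a a') :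
    BetaEq (Tm.app f a) (Tm.app f' a') := by
  refine beq_trans (B := Tm.app f' a) ?_ ?_
  · induction hf with
    | rel x y h => exact .rel _ _ (.appL a h)
    | refl x => exact .refl _
    | symm x y _ ih => exact .symm _ _ ih
    | trans x y z _ _ i1 i2 => exact .trans _ _ _ i1 i2
  · induction ha with
    | rel x y h => exact .rel _ _ (.appR f' h)
    | refl x => exact .refl _
    | symm x y _ ih => exact .symm _ _ ih
    | trans x y z _ _ i1 i2 => exact .trans _ _ _ i1 i2

theorem beq_lam {A A' M M' : Tm S} (hA : BetaEq A A') (hM : BetaEq M M') :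
    BetaEq (Tm.lam A M) (Tm.lam A' M') := by
  refine beq_trans (B := Tm.lam A' M) ?_ ?_
  · induction hA with
    | rel x y h => exact .rel _ _ (.lamA M h)
    | refl x => exact .refl _
    | symm x y _ ih => exact .symm _ _ ih
    | trans x y z _ _ i1 i2 => exact .trans _ _ _ i1 i2
  · induction hM with
    | rel x y h => exact .rel _ _ (.lamM A' h)
    | refl x => exact .refl _
    | symm x y _ ih => exact .symm _ _ ih
    | trans x y z _ _ i1 i2 => exact .trans _ _ _ i1 i2

theorem beq_pi {A A' M M' : Tm S} (hA : BetaEq A A') (hM : BetaEq M M') :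
    BetaEq (Tm.pi A M) (Tm.pi A' M') := by
  refine beq_trans (B := Tm.pi A' M) ?_ ?_
  · induction hA with
    | rel x y h => exact .rel _ _ (.piA M h)
    | refl x => exact .refl _
    | symm x y _ ih => exact .symm _ _ ih
    | trans x y z _ _ i1 i2 => exact .trans _ _ _ i1 i2
  · induction hM with
    | rel x y h => exact .rel _ _ (.piB A' h)
    | refl x => exact .refl _
    | symm x y _ ih => exact .symm _ _ ih
    | trans x y z _ _ i1 i2 => exact .trans _ _ _ i1 i2

/-- `σ` and `σ'` agree up to conversion on the variables of class of rank at least `k`. -/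
def Agree (P : Spec S) (r : S → ℤ) (k : ℤ) (Γ : List (Tm S)) (σ σ' : ℕ → Tm S) : Prop :=
  ∀ i d, Cls P Γ (Tm.var i) d → k ≤ r d → BetaEq (σ i) (σ' i)

theorem Agree.ups (hP : Strat P r) {k : ℤ} {Γ : List (Tm S)} {σ σ' : ℕ → Tm S}
    (h : Agree P r k Γ σ σ') (A : Tm S) : Agree P r k (A :: Γ) (ups σ) (ups σ') := by
  intro i d hi hd
  cases i with
  | zero => exact .refl _
  | succ i => exact (h i d (var_cls_succ hP hi) hd).ren _

theorem Agree.scons (hP : Strat P r) {k : ℤ} {Γ : List (Tm S)} {σ σ' : ℕ → Tm S}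
    (h : Agree P r k Γ σ σ') {A : Tm S} {N N' : Tm S} {d : S} (hA : Typ P Γ A (Tm.sort d))
    (hN : k ≤ r d → BetaEq N N') :
    Agree P r k (A :: Γ) (P340S.scons N σ) (P340S.scons N' σ') := by
  intro i d' hi hd'
  cases i with
  | zero =>
    obtain rfl := Cls.unique hP (⟨_, .start hA, .weak hA hA⟩ : Cls P (A :: Γ) (Tm.var 0) d) hi
    exact hN hd'
  | succ i => exact h i d' (var_cls_succ hP hi) hd'

theorem Agree.refl (k : ℤ) (Γ : List (Tm S)) (σ : ℕ → Tm S) : Agree P r k Γ σ σ :=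
  fun _ _ _ _ => .refl _

/-- Expressions of high class only depend on the variables of high class. -/
theorem sub_agree (hP : Strat P r) (k : ℤ) : ∀ (M : Tm S) {Γ : List (Tm S)} {T : Tm S}
    {σ σ' : ℕ → Tm S}, Typ P Γ M T → (∀ d, Cls P Γ M d → k ≤ r d) →
    (∀ s, TopT P Γ M s → k ≤ r s + 1) → Agree P r k Γ σ σ' →
    BetaEq (Tm.sub σ M) (Tm.sub σ' M) := by
  intro M
  induction M with
  | var i =>
    intro Γ T σ σ' h hc _ ha
    rcases cls_or_top h with ⟨d, hd⟩ | ⟨s, hs⟩
    · exact ha i d hd (hc d hd)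
    · obtain ⟨T', hi, -⟩ := genVar h
      obtain ⟨d, hd⟩ := look_sort h.wf hi
      exact ((cls_var h.wf hi hd).not_top hP hs).elim
  | sort s => intros; exact .refl _
  | app f a ihf iha =>
    intro Γ T σ σ' h hc _ ha
    rcases cls_or_top h with ⟨d, hd⟩ | ⟨s, hs⟩
    · obtain ⟨hfc, A, B, d', hf, haA, hA, -, hr⟩ := cls_app hP hd
      have hk := hc d hd
      refine beq_app (ihf hf (fun d1 h1 => ?_) (fun s hs => (hfc.not_top hP hs).elim) ha)
        (iha haA (fun d1 h1 => ?_) (fun s hs => (Cls.not_top hP ⟨A, haA, hA⟩ hs).elim) ha)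
      · obtain rfl := hfc.unique hP h1; exact hk
      · obtain rfl := Cls.unique hP (⟨A, haA, hA⟩ : Cls P Γ a d') h1
        rcases hP.ruleRank _ _ _ hr with rfl | h' <;> omega
    · rcases top_cases hP hs with ⟨t, e⟩ | ⟨_, _, _, e, -⟩ <;> cases e
  | lam A M ihA ihM =>
    intro Γ T σ σ' h hc _ ha
    rcases cls_or_top h with ⟨d, hd⟩ | ⟨s, hs⟩
    · obtain ⟨B, d', hM, hA, hB, hr⟩ := cls_lam hP hd
      have hk : k ≤ r d' := by
        have := hc d hd
        rcases hP.ruleRank _ _ _ hr with rfl | h' <;> omega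
      have hMc : Cls P (A :: Γ) M d := ⟨B, hM, hB⟩
      refine beq_lam (ihA hA (fun d1 h1 => ?_) (fun s hs => ?_) ha)
        (ihM hM (fun d1 h1 => ?_) (fun s hs => (hMc.not_top hP hs).elim) (ha.ups hP A))
      · have := hP.axRank _ _ (hP.cls_sorted hA h1); omega
      · obtain rfl := hP.sortUnique hA hs.1; omega
      · obtain rfl := hMc.unique hP h1; exact hc d hd
    · rcases top_cases hP hs with ⟨t, e⟩ | ⟨_, _, _, e, -⟩ <;> cases e
  | pi A B ihA ihB =>
    intro Γ T σ σ' h hc ht ha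
    obtain ⟨d, s₂, s₃, hA, hB, hr, he⟩ := genPi' h
    obtain rfl := hP.codom _ _ _ hr
    have hp := Typ.prod hA hB hr
    have hk : k ≤ r s₃ + 1 := by
      by_cases hb : ∃ b, P.ax s₃ b
      · obtain ⟨b, hb⟩ := hb
        have := hc b (cls_of_sorted hp hb)
        have := hP.axRank _ _ hb
        omega
      · exact ht s₃ ⟨hp, fun b hb' => hb ⟨b, hb'⟩⟩
    have hd : k ≤ r d + 1 := by
      rcases hP.ruleRank _ _ _ hr with rfl | h' <;> omega
    refine beq_pi (ihA hA (fun d1 h1 => ?_) (fun s hs => ?_) ha)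
      (ihB hB (fun d1 h1 => ?_) (fun s hs => ?_) (ha.ups hP A))
    · have := hP.axRank _ _ (hP.cls_sorted hA h1); omega
    · obtain rfl := hP.sortUnique hA hs.1; omega
    · have h2 := hP.cls_sorted hB h1
      exact hc d1 (cls_of_sorted hp h2)
    · obtain rfl := hP.sortUnique hB hs.1; omega

theorem sorted_agree (hP : Strat P r) {k : ℤ} {Γ : List (Tm S)} {A : Tm S} {d : S}
    {σ σ' : ℕ → Tm S} (hA : Typ P Γ A (Tm.sort d)) (hk : k ≤ r d + 1)
    (ha : Agree P r k Γ σ σ') : BetaEq (Tm.sub σ A) (Tm.sub σ' A) :=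
  sub_agree hP k A hA (fun d1 h1 => by have := hP.axRank _ _ (hP.cls_sorted hA h1); omega)
    (fun s hs => by obtain rfl := hP.sortUnique hA hs.1; omega) ha

/-- The hypotheses of the last case. -/
structure CaseD (P : Spec S) (r : S → ℤ) (e : ℕ → Tm S) (c c₁ : S) : Prop where
  strat : Strat P r
  ax : P.ax c c₁
  noDep : ∀ k, P.ax c₁ k → ¬ P.rule k c₁ c₁
  hi : Hi P r c
  cover : Cover P e

theorem fresh_typ (hc : Cover P e) {T : Tm S} {s : S} (h : G P e T (Tm.sort s)) :
    G P e (fresh P e T) T := by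
  have h' := G.exists_var hc h
  unfold fresh
  rw [dif_pos h']
  exact Classical.choose_spec h'

theorem GSub.fresh (hc : Cover P e) {Γ : List (Tm S)} {σ : ℕ → Tm S} (h : GSub P e σ Γ)
    {A : Tm S} {d : S} (hA : Typ P Γ A (Tm.sort d)) :
    GSub P e (P340S.scons (P340S.fresh P e (Tm.sub σ A)) σ) (A :: Γ) :=
  h.scons (fresh_typ hc (s := d) (G.subst hA h))

namespace CaseD

variable (H : CaseD P r e c c₁)
include H

theorem rk : r c₁ = r c + 1 := H.strat.axRank _ _ H.ax

theorem snsort : SNSort P c₁ := fun _ _ h => dom_sn H.strat H.hi h (by have := H.rk; omega)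

theorem ne : c ≠ c₁ := fun h => by have := H.rk; rw [← h] at this; omega

theorem sn_high {M T : Tm S} {d : S} (hM : G P e M T) (hT : G P e T (Tm.sort d))
    (hd : r c < r d) : SAcc M := by
  obtain ⟨n, hn⟩ := hM
  obtain ⟨m, hm⟩ := hT
  have h := H.hi d hd _ _
    ⟨_, (hn.mono (le_max_left n m)).2.2, (hm.mono (le_max_right n m)).2.2⟩
  rw [ren_eq_sub] at h
  exact SAcc.of_sub h

theorem gshape_eq {n : ℕ} {K : Tm S} (h : GN P e n K (Tm.sort c₁)) :
    gshape P e c c₁ K = shape P c₁ c (U P e n) (Tm.ren (lv (U P e n).length) K) := by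
  have step : ∀ {n}, GN P e n K (Tm.sort c₁) →
      shape P c₁ c (U P e (n + 1)) (Tm.ren (lv (U P e (n + 1)).length) K) =
        shape P c₁ c (U P e n) (Tm.ren (lv (U P e n).length) K) := by
    intro n hn
    have hw := U_wf (P := P) (e := e) (n + 1)
    simp only [U] at hw ⊢
    split at hw
    · next hc =>
      rw [if_pos hc, List.length_cons, ren_lv_succ hn.1]
      exact shape_sh H.strat H.snsort hn.2.2 hw
    · next hc => rw [if_neg hc]
  have main : ∀ {m n}, n ≤ m → GN P e n K (Tm.sort c₁) →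
      shape P c₁ c (U P e m) (Tm.ren (lv (U P e m).length) K) =
        shape P c₁ c (U P e n) (Tm.ren (lv (U P e n).length) K) := by
    intro m n hm hn
    induction hm with
    | refl => rfl
    | step h' ih => rw [step (hn.mono h'), ih]
  have hex : ∃ n, GN P e n K (Tm.sort c₁) := ⟨n, h⟩
  unfold gshape
  rw [dif_pos hex, ← main (le_max_left _ n) (Classical.choose_spec hex),
    main (le_max_right _ n) h]

theorem gshape_congr {K K' : Tm S} (h : G P e K (Tm.sort c₁)) (h' : G P e K' (Tm.sort c₁))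
    (he : BetaEq K K') : gshape P e c c₁ K = gshape P e c c₁ K' := by
  obtain ⟨n, hn⟩ := h
  obtain ⟨m, hm⟩ := h'
  have a := hn.mono (le_max_left n m)
  have b := hm.mono (le_max_right n m)
  rw [H.gshape_eq a, H.gshape_eq b]
  exact shape_congr H.snsort a.2.2 b.2.2 (he.ren _)

theorem gshape_sort {s : S} (h : P.ax s c₁) :
    gshape P e c c₁ (Tm.sort s) = if s = c then Sh.o else Sh.u := by
  have hg : GN P e 0 (Tm.sort s) (Tm.sort c₁) := by
    simp only [GN, U, Bd, Tm.ren, true_and]; exact .sortAx h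
  rw [H.gshape_eq hg]
  simp only [shape, U, Tm.ren, shN,
    nf_eq (M := (Tm.sort s : Tm S)) .refl (fun _ hs => by cases hs)]

theorem gshape_pi {A B N : Tm S} {d : S} (hp : G P e (Tm.pi A B) (Tm.sort c₁))
    (hA : G P e A (Tm.sort d)) (hN : G P e N A) :
    gshape P e c c₁ (Tm.pi A B) = if d = c₁ then
      Sh.arr (gshape P e c c₁ A) (gshape P e c c₁ (inst B N))
    else Sh.skip (gshape P e c c₁ (inst B N)) := by
  obtain ⟨n1, h1⟩ := hp
  obtain ⟨n2, h2⟩ := hA
  obtain ⟨n3, h3⟩ := hN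
  obtain ⟨n, hn1, hn2, hn3⟩ : ∃ n, n1 ≤ n ∧ n2 ≤ n ∧ n3 ≤ n :=
    ⟨n1 + n2 + n3, by omega, by omega, by omega⟩
  have a1 := h1.mono hn1
  have a2 := h2.mono hn2
  have a3 := h3.mono hn3
  have t1 := a1.2.2
  have t2 := a2.2.2
  have t3 := a3.2.2
  simp only [Tm.ren] at t1 t2
  obtain ⟨d', hA', hB', hr⟩ := pi_of_sorted H.strat t1
  obtain rfl := H.strat.sortUnique t2 hA'
  have ti : Typ P (U P e n) (Tm.ren (lv (U P e n).length) (inst B N)) (Tm.sort c₁) := by
    rw [ren_inst]; exact hB'.inst0 t3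
  have a4 : GN P e n (inst B N) (Tm.sort c₁) := ⟨a1.1.2.inst a3.1, trivial, ti⟩
  have hsh : shape P c₁ c (U P e n) (Tm.ren (lv (U P e n).length) (inst B N)) =
      shape P c₁ c (Tm.ren (lv (U P e n).length) A :: U P e n)
        (Tm.ren (up (lv (U P e n).length)) B) := by
    rw [ren_inst]
    refine shape_sub H.strat H.snsort hB' t3.wf (SubTy.single t3) fun i k hi hk => ?_
    cases i with
    | zero =>
      obtain rfl := Cls.unique H.strat
        (⟨_, .start t2, .weak t2 t2⟩ : Cls P (_ :: U P e n) (Tm.var 0) d) hi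
      exact (H.noDep _ hk hr).elim
    | succ i => exact ⟨i, rfl⟩
  rw [H.gshape_eq a1, H.gshape_eq a4, hsh]
  simp only [Tm.ren]
  rw [shape_pi H.strat H.snsort t1 t2]
  by_cases hd : d = c₁
  · subst hd; rw [if_pos rfl, if_pos rfl, H.gshape_eq a2]
  · rw [if_neg hd, if_neg hd]

theorem kof_some {a A : Tm S} (ha : G P e a A) (hA : G P e A (Tm.sort c₁)) :
    kof P e c c₁ a = some (gshape P e c c₁ A) := by
  have h : ∃ T, G P e a T ∧ G P e T (Tm.sort c₁) := ⟨A, ha, hA⟩
  unfold kof
  rw [dif_pos h]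
  obtain ⟨h1, h2⟩ := Classical.choose_spec h
  rw [H.gshape_congr h2 hA (G.typeUnique H.strat h1 ha)]

theorem kof_none {a A : Tm S} {d : S} (ha : G P e a A) (hA : G P e A (Tm.sort d))
    (hd : d ≠ c₁) : kof P e c c₁ a = none := by
  unfold kof
  rw [dif_neg]
  rintro ⟨T, h1, h2⟩
  exact hd (G.convSort H.strat hA h2 (G.typeUnique H.strat ha h1))

theorem kind_agree {Γ : List (Tm S)} {σ σ' : ℕ → Tm S} {K : Tm S}
    (hK : Typ P Γ K (Tm.sort c₁)) (hσ : GSub P e σ Γ) (hσ' : GSub P e σ' Γ)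
    (ha : Agree P r (r c + 2) Γ σ σ') :
    gshape P e c c₁ (Tm.sub σ K) = gshape P e c c₁ (Tm.sub σ' K) :=
  H.gshape_congr (G.subst hK hσ) (G.subst hK hσ')
    (sorted_agree H.strat hK (by have := H.rk; omega) ha)

theorem gshape_conv {Γ : List (Tm S)} {σ : ℕ → Tm S} {K K' : Tm S}
    (hK : Typ P Γ K (Tm.sort c₁)) (hK' : Typ P Γ K' (Tm.sort c₁)) (hσ : GSub P e σ Γ)
    (he : BetaEq K K') : gshape P e c c₁ (Tm.sub σ K) = gshape P e c c₁ (Tm.sub σ K') :=
  H.gshape_congr (G.subst hK hσ) (G.subst hK' hσ) (he.sub σ)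

/-- The shape of the kind of an abstraction. -/
theorem gshape_lam {Γ : List (Tm S)} {σ : ℕ → Tm S} {A B N : Tm S} {d : S}
    (hA : Typ P Γ A (Tm.sort d)) (hB : Typ P (A :: Γ) B (Tm.sort c₁)) (hr : P.rule d c₁ c₁)
    (hσ : GSub P e σ Γ) (hN : G P e N (Tm.sub σ A)) :
    gshape P e c c₁ (Tm.sub σ (Tm.pi A B)) = if d = c₁ then
      Sh.arr (gshape P e c c₁ (Tm.sub σ A)) (gshape P e c c₁ (Tm.sub (scons N σ) B))
    else Sh.skip (gshape P e c c₁ (Tm.sub (scons N σ) B)) := by
  have hp := G.subst (Typ.prod hA hB hr) hσ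
  simp only [Tm.sub] at hp ⊢
  rw [H.gshape_pi (show G P e _ (Tm.sort c₁) from hp)
    (show G P e _ (Tm.sort d) from G.subst hA hσ) hN, inst_ups]

theorem gshape_app {Γ : List (Tm S)} {σ : ℕ → Tm S} {A B a K : Tm S} {d : S}
    (ha : Typ P Γ a A) (hA : Typ P Γ A (Tm.sort d)) (hB : Typ P (A :: Γ) B (Tm.sort c₁))
    (hr : P.rule d c₁ c₁) (hK : Typ P Γ K (Tm.sort c₁)) (he : BetaEq (inst B a) K)
    (hσ : GSub P e σ Γ) :
    gshape P e c c₁ (Tm.sub σ (Tm.pi A B)) = if d = c₁ then
      Sh.arr (gshape P e c c₁ (Tm.sub σ A)) (gshape P e c c₁ (Tm.sub σ K))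
    else Sh.skip (gshape P e c c₁ (Tm.sub σ K)) := by
  rw [H.gshape_lam hA hB hr hσ (G.subst ha hσ), ← sub_scons_inst,
    H.gshape_conv (hB.inst0 ha) hK hσ he]

theorem gshape_out {Γ : List (Tm S)} {σ : ℕ → Tm S} {K : Tm S} {s : S}
    (hs : P.ax s c₁) (hK : Typ P Γ K (Tm.sort c₁)) (he : BetaEq (Tm.sort s) K)
    (hσ : GSub P e σ Γ) :
    gshape P e c c₁ (Tm.sub σ K) = if s = c then Sh.o else Sh.u := by
  rw [← H.gshape_conv (hK.wf.axTyp hs) hK hσ he]
  exact H.gshape_sort hs

end CaseD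

/-- `ξ` and `ξ'` agree on the constructor variables at the shapes of their kinds. -/
def VAgree (P : Spec S) (e : ℕ → Tm S) (c c₁ : S) (Γ : List (Tm S)) (σ : ℕ → Tm S)
    (ξ ξ' : ℕ → ∀ h, Val S h) : Prop :=
  ∀ i T, Look Γ i T → Typ P Γ T (Tm.sort c₁) →
    ξ i (gshape P e c c₁ (Tm.sub σ T)) = ξ' i (gshape P e c c₁ (Tm.sub σ T))

theorem VAgree.refl (Γ : List (Tm S)) (σ : ℕ → Tm S) (ξ : ℕ → ∀ h, Val S h) :
    VAgree P e c c₁ Γ σ ξ ξ := fun _ _ _ _ => rfl

theorem VAgree.scons (hP : Strat P r) {Γ : List (Tm S)} {σ : ℕ → Tm S}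
    {ξ ξ' : ℕ → ∀ h, Val S h} (h : VAgree P e c c₁ Γ σ ξ ξ') {A : Tm S} {d : S} (N : Tm S)
    (hA : Typ P Γ A (Tm.sort d)) {v v' : ∀ h, Val S h}
    (hv : d = c₁ →
      v (gshape P e c c₁ (Tm.sub σ A)) = v' (gshape P e c c₁ (Tm.sub σ A))) :
    VAgree P e c c₁ (A :: Γ) (P340S.scons N σ) (P340S.scons v ξ) (P340S.scons v' ξ') := by
  intro i T hi hT
  cases hi with
  | zero =>
    rw [scons_sub_sh]
    exact hv (hP.sortUnique (.weak hA hA) hT)
  | @succ _ _ j T hi =>
    rw [scons_sub_sh]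
    obtain ⟨k, hk⟩ := look_sort hA.wf hi
    obtain rfl := hP.sortUnique (.weak hk hA) hT
    exact h j T hi hk

namespace CaseD

variable (H : CaseD P r e c c₁)
include H

theorem rule_high {d : S} (hr : P.rule d c₁ c₁) (hd : d ≠ c₁) : r c + 2 ≤ r d := by
  have := H.rk
  rcases H.strat.ruleRank _ _ _ hr with rfl | h'
  · exact absurd rfl hd
  · omega

theorem high_eq {Γ : List (Tm S)} {a A : Tm S} {d : S} (ha : Typ P Γ a A)
    (hA : Typ P Γ A (Tm.sort d)) (hd : r c + 2 ≤ r d) {σ σ' : ℕ → Tm S}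
    (hag : Agree P r (r c + 2) Γ σ σ') : BetaEq (Tm.sub σ a) (Tm.sub σ' a) :=
  sub_agree H.strat _ a ha
    (fun d1 h1 => by
      obtain rfl := Cls.unique H.strat (⟨A, ha, hA⟩ : Cls P Γ a d) h1; exact hd)
    (fun s hs => (Cls.not_top H.strat ⟨A, ha, hA⟩ hs).elim) hag

theorem sn_sub {Γ : List (Tm S)} {a A : Tm S} {d : S} (ha : Typ P Γ a A)
    (hA : Typ P Γ A (Tm.sort d)) (hd : r c < r d) {σ : ℕ → Tm S} (hσ : GSub P e σ Γ) :
    SAcc (Tm.sub σ a) :=
  H.sn_high (G.subst ha hσ) (d := d) (G.subst hA hσ) hd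

theorem G_iff {A A' N : Tm S} {d d' : S} (hA : G P e A (Tm.sort d))
    (hA' : G P e A' (Tm.sort d')) (he : BetaEq A A') : G P e N A ↔ G P e N A' :=
  ⟨fun h => h.conv hA' he, fun h => h.conv hA (beq_symm he)⟩

theorem pi_o {Γ : List (Tm S)} {σ : ℕ → Tm S} {A B : Tm S} {d : S}
    (hA : Typ P Γ A (Tm.sort d)) (hσ : GSub P e σ Γ) (ξ : ℕ → ∀ h, Val S h) :
    V P e c c₁ (Tm.pi A B) σ ξ .o =
      if d = c then
        Cand.arrow (V P e c c₁ A σ ξ .o)
          (V P e c c₁ B (scons (fresh P e (Tm.sub σ A)) σ) (scons dflt ξ) .o)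
      else if d = c₁ then
        interVal (gshape P e c c₁ (Tm.sub σ A)) fun v => Cand.skip c
          (V P e c c₁ B (scons (fresh P e (Tm.sub σ A)) σ) (scons v ξ) .o)
      else
        Cand.inter fun N : Tm S =>
          if G P e N (Tm.sub σ A) then
            Cand.skip c (V P e c c₁ B (scons N σ) (scons dflt ξ) .o)
          else Cand.top := by
  have h1 : ∀ s, G P e (Tm.sub σ A) (Tm.sort s) ↔ d = s := fun s =>
    ⟨fun h => G.sortUnique H.strat (show G P e _ (Tm.sort d) from G.subst hA hσ) h,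
      fun h => h ▸ (show G P e _ (Tm.sort d) from G.subst hA hσ)⟩
  simp only [V, h1]
  congr

theorem V_congr : ∀ (M : Tm S) {Γ : List (Tm S)} {K : Tm S} {σ σ' : ℕ → Tm S}
    {ξ ξ' : ℕ → ∀ h, Val S h}, Typ P Γ M K → Typ P Γ K (Tm.sort c₁) →
    GSub P e σ Γ → GSub P e σ' Γ → Agree P r (r c + 2) Γ σ σ' →
    VAgree P e c c₁ Γ σ ξ ξ' →
    V P e c c₁ M σ ξ (gshape P e c c₁ (Tm.sub σ K)) =
      V P e c c₁ M σ' ξ' (gshape P e c c₁ (Tm.sub σ K)) := by
  have hP := H.strat
  intro M
  induction M with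
  | var i =>
    intro Γ K σ σ' ξ ξ' h hK hσ _ _ hv
    obtain ⟨T', hi, he⟩ := genVar h
    obtain ⟨k, hk⟩ := look_sort h.wf hi
    obtain rfl := hP.convSort hk hK he
    rw [← H.gshape_conv hk hK hσ he]
    exact hv i T' hi hk
  | sort s => intros; rfl
  | app f a ihf iha =>
    intro Γ K σ σ' ξ ξ' h hK hσ hσ' hag hv
    obtain ⟨-, A, B, d, hf, ha, hA, hB, hr⟩ := cls_app hP ⟨K, h, hK⟩
    have he := hP.typeUnique _ (.appl hf ha) h
    have IH := ihf hf (.prod hA hB hr) hσ hσ' hag hv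
    rw [H.gshape_app ha hA hB hr hK he hσ] at IH
    by_cases hd : d = c₁
    · subst hd
      rw [if_pos rfl] at IH
      simp only [V]
      rw [H.kof_some (G.subst ha hσ) (G.subst hA hσ), H.kof_some (G.subst ha hσ')
        (G.subst hA hσ'), ← H.kind_agree hA hσ hσ' hag]
      dsimp only
      rw [IH, iha ha hA hσ hσ' hag hv]
    · rw [if_neg hd] at IH
      simp only [V]
      rw [H.kof_none (d := d) (G.subst ha hσ) (G.subst hA hσ) hd,
        H.kof_none (d := d) (G.subst ha hσ') (G.subst hA hσ') hd]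
      dsimp only
      have hh := H.rule_high hr hd
      rw [IH, nf_congr (H.sn_sub ha hA (by omega) hσ) (H.sn_sub ha hA (by omega) hσ')
        (H.high_eq ha hA hh hag)]
  | lam A M _ ihM =>
    intro Γ K σ σ' ξ ξ' h hK hσ hσ' hag hv
    obtain ⟨B, d, hM, hA, hB, hr⟩ := cls_lam hP ⟨K, h, hK⟩
    have hp := Typ.prod hA hB hr
    have hf := fresh_typ H.cover (s := d) (G.subst hA hσ)
    rw [← H.gshape_conv hp hK hσ (hP.typeUnique _ (.abst hM hp) h),
      H.gshape_lam hA hB hr hσ hf]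
    by_cases hd : d = c₁
    · rw [if_pos hd]
      simp only [V]
      funext v
      exact ihM hM hB (hσ.fresh H.cover hA) (hσ'.fresh H.cover hA)
        (hag.scons hP hA fun h' => by subst hd; have := H.rk; omega)
        (hv.scons hP _ hA fun _ => rfl)
    · rw [if_neg hd]
      simp only [V]
      funext N
      have hiff := H.G_iff (N := N) (d := d) (d' := d) (G.subst hA hσ) (G.subst hA hσ')
        (sorted_agree hP hA (by have := H.rule_high hr hd; omega) hag)
      by_cases hN : G P e N (Tm.sub σ A)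
      · rw [if_pos hN, if_pos (hiff.1 hN)]
        have hB' : gshape P e c c₁ (Tm.sub (scons (fresh P e (Tm.sub σ A)) σ) B) =
            gshape P e c c₁ (Tm.sub (scons N σ) B) := by
          have h1 := H.gshape_lam hA hB hr hσ hf
          have h2 := H.gshape_lam hA hB hr hσ hN
          rw [if_neg hd] at h1 h2
          rw [h1] at h2
          injection h2
        rw [hB']
        exact ihM hM hB (hσ.scons hN) (hσ'.scons (hiff.1 hN))
          (hag.scons hP hA fun _ => .refl _) (hv.scons hP _ hA fun _ => rfl)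
      · rw [if_neg hN, if_neg (mt hiff.2 hN)]
  | pi A B ihA ihB =>
    intro Γ K σ σ' ξ ξ' h hK hσ hσ' hag hv
    obtain ⟨d, s, hA, hB, hr, hs, -⟩ := cls_pi hP ⟨K, h, hK⟩
    rw [H.gshape_out hs hK (hP.typeUnique _ (.prod hA hB hr) h) hσ]
    by_cases hsc : s = c
    swap
    · rw [if_neg hsc]; rfl
    subst hsc
    rw [if_pos rfl, H.pi_o hA hσ ξ, H.pi_o hA hσ' ξ']
    have hB0 : ∀ {N N' : Tm S} {v v' : ∀ h, Val S h}, G P e N (Tm.sub σ A) →
        G P e N' (Tm.sub σ' A) → (r s + 2 ≤ r d → BetaEq N N') →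
        (d = c₁ → v (gshape P e s c₁ (Tm.sub σ A)) = v' (gshape P e s c₁ (Tm.sub σ A))) →
        V P e s c₁ B (scons N σ) (scons v ξ) .o =
          V P e s c₁ B (scons N' σ') (scons v' ξ') .o := by
      intro N N' v v' hN hN' hb hvv
      have hK' := hB.wf.axTyp (P := P) H.ax
      have := ihB hB hK' (hσ.scons hN) (hσ'.scons hN') (hag.scons hP hA hb)
        (hv.scons hP _ hA hvv)
      rwa [show gshape P e s c₁ (Tm.sub (scons N σ) (Tm.sort s)) = .o by
        show gshape P e s c₁ (Tm.sort s) = _; rw [H.gshape_sort H.ax, if_pos rfl]] at this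
    by_cases hd : d = s
    · subst hd
      rw [if_pos rfl, if_pos rfl]
      have hA' := ihA hA (hA.wf.axTyp H.ax) hσ hσ' hag hv
      rw [show gshape P e d c₁ (Tm.sub σ (Tm.sort d)) = .o by
        show gshape P e d c₁ (Tm.sort d) = _; rw [H.gshape_sort H.ax, if_pos rfl]] at hA'
      rw [hA', hB0 (fresh_typ H.cover (s := d) (G.subst hA hσ))
        (fresh_typ H.cover (s := d) (G.subst hA hσ')) (fun h' => by omega) (fun _ => rfl)]
    · rw [if_neg hd, if_neg hd]
      have hd' : r s < r d := by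
        rcases hP.ruleRank _ _ _ hr with h' | h'
        · exact absurd h' hd
        · exact h'
      by_cases hd1 : d = c₁
      · subst hd1
        rw [if_pos rfl, if_pos rfl, ← H.kind_agree hA hσ hσ' hag]
        congr 1
        funext v
        rw [hB0 (fresh_typ H.cover (s := d) (G.subst hA hσ))
          (fresh_typ H.cover (s := d) (G.subst hA hσ'))
          (fun h' => by have := H.rk; omega) (fun _ => rfl)]
      · rw [if_neg hd1, if_neg hd1]
        congr 1
        funext N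
        have hiff := H.G_iff (N := N) (d := d) (d' := d) (G.subst hA hσ) (G.subst hA hσ')
          (sorted_agree hP hA (by omega) hag)
        by_cases hN : G P e N (Tm.sub σ A)
        · rw [if_pos hN, if_pos (hiff.1 hN),
            hB0 hN (hiff.1 hN) (fun _ => .refl _) (fun _ => rfl)]
        · rw [if_neg hN, if_neg (mt hiff.2 hN)]

theorem V_step {M M' : Tm S} (hs : Step M M') : ∀ {Γ : List (Tm S)} {K : Tm S}
    {σ : ℕ → Tm S} (ξ : ℕ → ∀ h, Val S h), Typ P Γ M K → Typ P Γ K (Tm.sort c₁) →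
    GSub P e σ Γ →
    V P e c c₁ M σ ξ (gshape P e c c₁ (Tm.sub σ K)) =
      V P e c c₁ M' σ ξ (gshape P e c c₁ (Tm.sub σ K)) := by
  have hP := H.strat
  induction hs with
  | beta A P0 N =>
    intro Γ K σ ξ h hK hσ
    obtain ⟨hl, A', B', d', hf, hNA', -, -, -⟩ := cls_app hP ⟨K, h, hK⟩
    obtain ⟨B, d, hM, hA, hB, hr⟩ := cls_lam hP hl
    have hl' := Typ.abst hM (.prod hA hB hr)
    have hNA : Typ P Γ N A :=
      .conv hNA' hA (beq_symm (betaEq_pi_inv (hP.typeUnique _ hl' hf)).1)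
    have he := hP.typeUnique _ (.appl hl' hNA) h
    have hN := G.subst hNA hσ
    rw [V_inst, ← H.gshape_conv (hB.inst0 hNA) hK hσ he, sub_scons_inst]
    by_cases hd : d = c₁
    · subst hd
      have hf' := hσ.fresh H.cover hA
      have hag : Agree P r (r c + 2) (A :: Γ) (scons (fresh P e (Tm.sub σ A)) σ)
          (scons (Tm.sub σ N) σ) :=
        (Agree.refl _ _ _).scons hP hA fun h' => by have := H.rk; omega
      simp only [V]
      rw [H.kof_some hN (G.subst hA hσ), ← H.kind_agree hB hf' (hσ.scons hN) hag]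
      exact H.V_congr P0 hM hB hf' (hσ.scons hN) hag
        ((VAgree.refl _ _ _).scons hP _ hA fun _ => cast'_self _ _)
    · have hh := H.rule_high hr hd
      have hN' : G P e (nf (Tm.sub σ N)) (Tm.sub σ A) := by
        have : ∀ X, Relation.ReflTransGen Step (Tm.sub σ N) X → G P e X (Tm.sub σ A) := by
          intro X hX
          induction hX with
          | refl => exact hN
          | tail _ h' ih => exact ih.step h'
        exact this _ (nf_steps _)
      have hag : Agree P r (r c + 2) (A :: Γ) (scons (nf (Tm.sub σ N)) σ)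
          (scons (Tm.sub σ N) σ) :=
        (Agree.refl _ _ _).scons hP hA fun _ => beq_symm (steps_betaEq (nf_steps _))
      simp only [V]
      rw [H.kof_none (d := d) hN (G.subst hA hσ) hd,
        ← H.kind_agree hB (hσ.scons hN') (hσ.scons hN) hag]
      show (if G P e (nf (Tm.sub σ N)) (Tm.sub σ A) then _ else _) = _
      rw [if_pos hN']
      exact H.V_congr P0 hM hB (hσ.scons hN') (hσ.scons hN) hag
        ((VAgree.refl _ _ _).scons hP _ hA fun h' => absurd h' hd)
  | @appL f f' a _ ih =>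
    intro Γ K σ ξ h hK hσ
    obtain ⟨-, A, B, d, hf, ha, hA, hB, hr⟩ := cls_app hP ⟨K, h, hK⟩
    have he := hP.typeUnique _ (.appl hf ha) h
    have IH := ih ξ hf (.prod hA hB hr) hσ
    rw [H.gshape_app ha hA hB hr hK he hσ] at IH
    simp only [V]
    by_cases hd : d = c₁
    · subst hd
      rw [if_pos rfl] at IH
      rw [H.kof_some (G.subst ha hσ) (G.subst hA hσ)]
      exact congrFun IH _
    · rw [if_neg hd] at IH
      rw [H.kof_none (d := d) (G.subst ha hσ) (G.subst hA hσ) hd]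
      exact congrFun IH _
  | @appR f a a' hs ih =>
    intro Γ K σ ξ h hK hσ
    obtain ⟨-, A, B, d, hf, ha, hA, hB, hr⟩ := cls_app hP ⟨K, h, hK⟩
    simp only [V]
    by_cases hd : d = c₁
    · subst hd
      rw [H.kof_some (G.subst ha hσ) (G.subst hA hσ),
        H.kof_some (G.subst (ha.step hs) hσ) (G.subst hA hσ)]
      dsimp only
      rw [ih ξ ha hA hσ]
    · rw [H.kof_none (d := d) (G.subst ha hσ) (G.subst hA hσ) hd,
        H.kof_none (d := d) (G.subst (ha.step hs) hσ) (G.subst hA hσ) hd]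
      dsimp only
      have hh := H.rule_high hr hd
      rw [nf_congr (H.sn_sub ha hA (by omega) hσ) (H.sn_sub (ha.step hs) hA (by omega) hσ)
        (Tm.BetaEq.sub (.rel _ _ hs) σ)]
  | @lamA A A' M hs _ =>
    intro Γ K σ ξ h hK hσ
    obtain ⟨B, d, hM, hA, hB, hr⟩ := cls_lam hP ⟨K, h, hK⟩
    have hp := Typ.prod hA hB hr
    have hf := fresh_typ H.cover (s := d) (G.subst hA hσ)
    have hiff := fun N => H.G_iff (N := N) (d := d) (d' := d) (G.subst hA hσ)
      (G.subst (hA.step hs) hσ) (Tm.BetaEq.sub (.rel _ _ hs) σ)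
    rw [← H.gshape_conv hp hK hσ (hP.typeUnique _ (.abst hM hp) h),
      H.gshape_lam hA hB hr hσ hf]
    by_cases hd : d = c₁
    · rw [if_pos hd]
      simp only [V]
      funext v
      exact H.V_congr M hM hB (hσ.fresh H.cover hA)
        (hσ.scons ((hiff _).2 (fresh_typ H.cover (s := d) (G.subst (hA.step hs) hσ))))
        ((Agree.refl _ _ _).scons hP hA fun h' => by subst hd; have := H.rk; omega)
        (VAgree.refl _ _ _)
    · rw [if_neg hd]
      simp only [V, hiff]
      funext N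
      congr
  | @lamM A M M' _ ih =>
    intro Γ K σ ξ h hK hσ
    obtain ⟨B, d, hM, hA, hB, hr⟩ := cls_lam hP ⟨K, h, hK⟩
    have hp := Typ.prod hA hB hr
    have hf := fresh_typ H.cover (s := d) (G.subst hA hσ)
    rw [← H.gshape_conv hp hK hσ (hP.typeUnique _ (.abst hM hp) h),
      H.gshape_lam hA hB hr hσ hf]
    by_cases hd : d = c₁
    · rw [if_pos hd]
      simp only [V]
      funext v
      exact ih _ hM hB (hσ.fresh H.cover hA)
    · rw [if_neg hd]
      simp only [V]
      funext N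
      by_cases hN : G P e N (Tm.sub σ A)
      · rw [if_pos hN, if_pos hN]
        have h1 := H.gshape_lam hA hB hr hσ hf
        rw [H.gshape_lam hA hB hr hσ hN, if_neg hd, if_neg hd] at h1
        injection h1 with h1
        rw [← h1]
        exact ih _ hM hB (hσ.scons hN)
      · rw [if_neg hN, if_neg hN]
  | @piA A A' B hs ih =>
    intro Γ K σ ξ h hK hσ
    obtain ⟨d, s, hA, hB, hr, hax', -⟩ := cls_pi hP ⟨K, h, hK⟩
    rw [H.gshape_out hax' hK (hP.typeUnique _ (.prod hA hB hr) h) hσ]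
    by_cases hsc : s = c
    swap
    · rw [if_neg hsc]; rfl
    subst hsc
    have hA' := hA.step hs
    have he : BetaEq (Tm.sub σ A) (Tm.sub σ A') := Tm.BetaEq.sub (.rel _ _ hs) σ
    have hiff := fun N => H.G_iff (N := N) (d := d) (d' := d) (G.subst hA hσ)
      (G.subst hA' hσ) he
    rw [if_pos rfl, H.pi_o hA hσ ξ, H.pi_o hA' hσ ξ]
    have hK' : Typ P (A :: Γ) (Tm.sort s) (Tm.sort c₁) := hB.wf.axTyp H.ax
    have ho : ∀ τ : ℕ → Tm S, gshape P e s c₁ (Tm.sub τ (Tm.sort s)) = .o := fun τ => by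
      show gshape P e s c₁ (Tm.sort s) = _; rw [H.gshape_sort H.ax, if_pos rfl]
    have hfresh := hσ.scons ((hiff _).2 (fresh_typ H.cover (s := d) (G.subst hA' hσ)))
    have hfr : r d < r s + 2 → ∀ η : ℕ → ∀ h, Val S h,
        V P e s c₁ B (scons (fresh P e (Tm.sub σ A)) σ) η .o =
          V P e s c₁ B (scons (fresh P e (Tm.sub σ A')) σ) η .o := by
      intro hlow η
      have := H.V_congr B (ξ := η) (ξ' := η) hB hK' (hσ.fresh H.cover hA) hfresh
        ((Agree.refl _ _ _).scons hP hA fun h' => by omega) (VAgree.refl _ _ _)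
      rwa [ho] at this
    by_cases hd : d = s
    · subst hd
      rw [if_pos rfl, if_pos rfl]
      have hAA := ih ξ hA (hA.wf.axTyp H.ax) hσ
      rw [ho] at hAA
      rw [hAA, hfr (by omega)]
    · rw [if_neg hd, if_neg hd]
      by_cases hd1 : d = c₁
      · subst hd1
        rw [if_pos rfl, if_pos rfl, ← H.gshape_congr (G.subst hA hσ) (G.subst hA' hσ) he]
        congr 1
        funext v
        rw [hfr (by have := H.rk; omega)]
      · rw [if_neg hd1, if_neg hd1]
        simp only [hiff]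
        congr
  | @piB A B B' hs ih =>
    intro Γ K σ ξ h hK hσ
    obtain ⟨d, s, hA, hB, hr, hax', -⟩ := cls_pi hP ⟨K, h, hK⟩
    rw [H.gshape_out hax' hK (hP.typeUnique _ (.prod hA hB hr) h) hσ]
    by_cases hsc : s = c
    swap
    · rw [if_neg hsc]; rfl
    subst hsc
    rw [if_pos rfl, H.pi_o hA hσ ξ, H.pi_o hA hσ ξ]
    have hK' : Typ P (A :: Γ) (Tm.sort s) (Tm.sort c₁) := hB.wf.axTyp H.ax
    have hB0 : ∀ (N : Tm S) (η : ℕ → ∀ h, Val S h), G P e N (Tm.sub σ A) →
        V P e s c₁ B (scons N σ) η .o = V P e s c₁ B' (scons N σ) η .o := by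
      intro N η hN
      have := ih η hB hK' (hσ.scons hN)
      rwa [show gshape P e s c₁ (Tm.sub (scons N σ) (Tm.sort s)) = .o by
        show gshape P e s c₁ (Tm.sort s) = _; rw [H.gshape_sort H.ax, if_pos rfl]] at this
    have hf := fresh_typ H.cover (s := d) (G.subst hA hσ)
    by_cases hd : d = s
    · subst hd
      rw [if_pos rfl, if_pos rfl, hB0 _ _ hf]
    · rw [if_neg hd, if_neg hd]
      by_cases hd1 : d = c₁
      · subst hd1
        rw [if_pos rfl, if_pos rfl]
        congr 1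
        funext v
        rw [hB0 _ _ hf]
      · rw [if_neg hd1, if_neg hd1]
        congr 1
        funext N
        by_cases hN : G P e N (Tm.sub σ A)
        · rw [if_pos hN, if_pos hN, hB0 N _ hN]
        · rw [if_neg hN, if_neg hN]

theorem sort_o (τ : ℕ → Tm S) : gshape P e c c₁ (Tm.sub τ (Tm.sort c)) = .o := by
  show gshape P e c c₁ (Tm.sort c) = _
  rw [H.gshape_sort H.ax, if_pos rfl]

theorem V_steps {Γ : List (Tm S)} {T T' : Tm S} {σ : ℕ → Tm S} (ξ : ℕ → ∀ h, Val S h)
    (hT : Typ P Γ T (Tm.sort c)) (hσ : GSub P e σ Γ)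
    (hs : Relation.ReflTransGen Step T T') :
    V P e c c₁ T σ ξ .o = V P e c c₁ T' σ ξ .o := by
  induction hs with
  | refl => rfl
  | tail h' hs ih =>
    have := H.V_step hs ξ (typ_red hT h') (hT.wf.axTyp H.ax) hσ
    rw [H.sort_o] at this
    exact ih.trans this

theorem exists_gsub : ∀ Γ : List (Tm S), Wf P Γ → ∃ σ, GSub P e σ Γ := by
  intro Γ
  induction Γ with
  | nil => intro _; exact ⟨fun _ => Tm.sort c, fun i T h => by cases h⟩
  | cons A Γ ih =>
    intro h
    cases h with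
    | cons hΓ hA => obtain ⟨σ, hσ⟩ := ih hΓ; exact ⟨_, hσ.fresh H.cover hA⟩

theorem inst_value {Γ : List (Tm S)} {A B a : Tm S} {d : S} {σ : ℕ → Tm S}
    {ξ : ℕ → ∀ h, Val S h} (hA : Typ P Γ A (Tm.sort d))
    (hB : Typ P (A :: Γ) B (Tm.sort c)) (ha : Typ P Γ a A) (hσ : GSub P e σ Γ) {N : Tm S}
    (hN : G P e N (Tm.sub σ A)) (hag : r c + 2 ≤ r d → BetaEq N (Tm.sub σ a))
    {v : ∀ h, Val S h} (hv : d = c₁ → v (gshape P e c c₁ (Tm.sub σ A)) =
      V P e c c₁ a σ ξ (gshape P e c c₁ (Tm.sub σ A))) :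
    V P e c c₁ B (scons N σ) (scons v ξ) .o = V P e c c₁ (inst B a) σ ξ .o := by
  have := H.V_congr B (ξ := scons v ξ) (ξ' := scons (V P e c c₁ a σ ξ) ξ) hB
    (hB.wf.axTyp H.ax) (hσ.scons hN) (hσ.scons (G.subst ha hσ))
    ((Agree.refl _ _ _).scons H.strat hA hag)
    ((VAgree.refl _ _ _).scons H.strat _ hA hv)
  rw [H.sort_o] at this
  rw [this, V_inst]

end CaseD

/-- Environments of the last model. -/
def EnvD (P : Spec S) (e : ℕ → Tm S) (Γ : List (Tm S)) : Type u :=
  { p : (ℕ → Tm S) × (ℕ → ∀ h, Val S h) // GSub P e p.1 Γ }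

theorem V_sh (T N : Tm S) (σ : ℕ → Tm S) (v : ∀ h, Val S h) (ξ : ℕ → ∀ h, Val S h) :
    V P e c c₁ (sh T) (scons N σ) (scons v ξ) = V P e c c₁ T σ ξ :=
  V_ren T Nat.succ _ _

/-- The model when kinds cannot quantify over kinds. -/
noncomputable def instModel (H : CaseD P r e c c₁) : Model P c where
  Env := EnvD P e
  I _ p T := V P e c c₁ T p.1.1 p.1.2 .o
  init Γ hΓ := by
    obtain ⟨σ, hσ⟩ := H.exists_gsub Γ hΓ
    exact ⟨⟨(σ, fun _ => dflt), hσ⟩⟩
  conv Γ p T T' h h' he := by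
    obtain ⟨d, h1, h2⟩ := betaEq_join he
    rw [H.V_steps _ h p.2 h1, H.V_steps _ h' p.2 h2]
  ext Γ A d p hA :=
    ⟨⟨(scons (fresh P e (Tm.sub p.1.1 A)) p.1.1, scons dflt p.1.2), p.2.fresh H.cover hA⟩,
      fun T _ => by rw [V_sh]⟩
  app Γ A B a d p hA hB hr ha t u ht hu hu' := by
    obtain ⟨⟨σ, ξ⟩, hσ⟩ := p
    rw [H.pi_o hA hσ] at ht
    have hf := fresh_typ H.cover (s := d) (G.subst hA hσ)
    by_cases hd : d = c
    · subst hd
      rw [if_pos rfl] at ht
      rw [← H.inst_value hA hB ha hσ hf (fun h' => by omega) (v := dflt)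
        (fun h' => absurd h' H.ne)]
      exact ht u (hu rfl)
    · rw [if_neg hd] at ht
      rw [hu' hd]
      by_cases hd1 : d = c₁
      · subst hd1
        rw [if_pos rfl] at ht
        rw [← H.inst_value hA hB ha hσ hf (fun h' => by have := H.rk; omega)
          (v := cast' _ (V P e c d a σ ξ (gshape P e c d (Tm.sub σ A))))
          (fun _ => cast'_self _ _)]
        exact ht.2 _
      · rw [if_neg hd1] at ht
        have hN := ht.2 (Tm.sub σ a)
        dsimp only at hN hσ ⊢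
        rw [if_pos (G.subst ha hσ)] at hN
        rw [← H.inst_value hA hB ha hσ (G.subst ha hσ) (fun _ => .refl _) (v := dflt)
          (fun h' => absurd h' hd1)]
        exact hN
  lam Γ A B d p hA hB hr l M hl hMs h := by
    obtain ⟨⟨σ, ξ⟩, hσ⟩ := p
    rw [H.pi_o hA hσ]
    have body : ∀ (N : Tm S) (v : ∀ h, Val S h), G P e N (Tm.sub σ A) → ∀ u,
        (d = c → (V P e c c₁ A σ ξ .o).mem u) → (d ≠ c → u = Tm.sort c) →
        (V P e c c₁ B (scons N σ) (scons v ξ) .o).mem (inst M u) := by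
      intro N v hN u h1 h2
      exact h ⟨(scons N σ, scons v ξ), hσ.scons hN⟩ (fun T _ => by rw [V_sh]) u
        (fun h' => by rw [V_sh]; exact h1 h') h2
    have hf := fresh_typ H.cover (s := d) (G.subst hA hσ)
    by_cases hd : d = c
    · rw [if_pos hd]
      exact Cand.lam_arrow hl fun u hu => body _ _ hf u (fun _ => hu) (fun h' => absurd hd h')
    · rw [if_neg hd]
      by_cases hd1 : d = c₁
      · rw [if_pos hd1]
        exact ⟨SAcc.lam hl hMs, fun v => Cand.lam_skip hl
          (body _ _ hf _ (fun h' => absurd h' hd) fun _ => rfl)⟩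
      · rw [if_neg hd1]
        refine ⟨SAcc.lam hl hMs, fun N => ?_⟩
        show (if G P e N (Tm.sub σ A) then _ else Cand.top).mem _
        by_cases hN : G P e N (Tm.sub σ A)
        · rw [if_pos hN]
          exact Cand.lam_skip hl (body _ _ hN _ (fun h' => absurd h' hd) fun _ => rfl)
        · rw [if_neg hN]
          exact SAcc.lam hl hMs

end Vale.Agent.P340S
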