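import Vale.Agent.P340S.Cand

namespace Vale.Agent.P340S

open Vale.Agent.P340 Vale.Agent.P340.Tm
open Classical

variable {S : Type*}

theorem sacc_wn {M : Tm S} (h : SAcc M) :
    ∃ N, Relation.ReflTransGen Step M N ∧ Normal N := by
  induction h with
  | intro M _ ih =>
    by_cases hs : ∃ M', Step M M'
    · obtain ⟨M', hM'⟩ := hs
      obtain ⟨N, h1, h2⟩ := ih M' hM'
      exact ⟨N, Relation.ReflTransGen.head hM' h1, h2⟩
    · exact ⟨M, .refl, fun N hN => hs ⟨N, hN⟩⟩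

theorem normal_steps {M N : Tm S} (h : Normal M) (hs : Relation.ReflTransGen Step M N) :
    N = M := by
  induction hs with
  | refl => rfl
  | tail _ hs ih => subst ih; exact (h _ hs).elim

theorem normal_unique {N N' : Tm S} (h : Normal N) (h' : Normal N') (he : BetaEq N N') :
    N = N' := by
  obtain ⟨d, h1, h2⟩ := betaEq_join he
  rw [← normal_steps h h1, normal_steps h' h2]

/-- The normal form, if there is one. -/
noncomputable def nf (M : Tm S) : Tm S :=
  if h : ∃ N, Relation.ReflTransGen Step M N ∧ Normal N then Classical.choose h else M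

theorem nf_steps (M : Tm S) : Relation.ReflTransGen Step M (nf M) := by
  unfold nf; split
  · next h => exact (Classical.choose_spec h).1
  · exact .refl

theorem nf_normal {M : Tm S} (h : SAcc M) : Normal (nf M) := by
  unfold nf; rw [dif_pos (sacc_wn h)]
  exact (Classical.choose_spec (sacc_wn h)).2

theorem nf_eq {M N : Tm S} (h : Relation.ReflTransGen Step M N) (hN : Normal N) :
    nf M = N := by
  unfold nf; rw [dif_pos ⟨N, h, hN⟩]
  exact normal_unique (Classical.choose_spec (⟨N, h, hN⟩ : ∃ N, _ ∧ _)).2 hN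
    (beq_trans (beq_symm (steps_betaEq (Classical.choose_spec (⟨N, h, hN⟩ : ∃ N, _ ∧ _)).1))
      (steps_betaEq h))

theorem nf_congr {M M' : Tm S} (h : SAcc M) (h' : SAcc M') (he : BetaEq M M') :
    nf M = nf M' :=
  normal_unique (nf_normal h) (nf_normal h') (beq_trans (beq_symm (steps_betaEq (nf_steps M)))
    (beq_trans he (steps_betaEq (nf_steps M'))))

/-- Applications of the variable `i`. -/
inductive VSp (i : ℕ) : Tm S → Prop where
  | var : VSp i (Tm.var i)
  | app {f : Tm S} (a : Tm S) : VSp i f → VSp i (Tm.app f a)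

theorem VSp.step {i : ℕ} {M N : Tm S} (h : VSp i M) (hs : Step M N) : VSp i N := by
  induction h generalizing N with
  | var => cases hs
  | app a hf ihf =>
    cases hs with
    | beta => cases hf
    | appL _ h => exact .app _ (ihf h)
    | appR _ h => exact .app _ hf

theorem VSp.steps {i : ℕ} {M N : Tm S} (h : VSp i M) (hs : Relation.ReflTransGen Step M N) :
    VSp i N := by
  induction hs with
  | refl => exact h
  | tail _ hs ih => exact ih.step hs

theorem VSp.sub {i j : ℕ} {M : Tm S} {τ : ℕ → Tm S} (h : VSp i M) (hj : τ i = Tm.var j) :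
    VSp j (Tm.sub τ M) := by
  induction h with
  | var => show VSp j (τ i); rw [hj]; exact .var
  | app a _ ih => exact .app _ ih

variable {P : Spec S} {r : S → ℤ}

theorem normal_app (hP : Strat P r) : ∀ (M : Tm S) {Γ : List (Tm S)} {a T : Tm S},
    Typ P Γ (Tm.app M a) T → Normal (Tm.app M a) → ∃ i, VSp i (Tm.app M a) := by
  intro M
  induction M with
  | var i => intro Γ a T _ _; exact ⟨i, .app _ .var⟩
  | sort s =>
    intro Γ a T h _
    obtain ⟨A, B, hf, -, -⟩ := genApp h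
    obtain ⟨b, -, he⟩ := genSort' hf
    exact (sort_ne_pi he).elim
  | app f b ih _ =>
    intro Γ a T h hn
    obtain ⟨A, B, hf, -, -⟩ := genApp h
    obtain ⟨i, hi⟩ := ih hf (fun X hX => hn _ (.appL _ hX))
    exact ⟨i, .app _ hi⟩
  | lam A M _ _ => intro Γ a T _ hn; exact (hn _ (.beta _ _ _)).elim
  | pi A B _ _ =>
    intro Γ a T h _
    obtain ⟨A', B', hf, -, -⟩ := genApp h
    obtain ⟨_, _, _, -, -, -, he⟩ := genPi' hf
    exact (sort_ne_pi he).elim

theorem VSp.cls (hP : Strat P r) {Γ : List (Tm S)} {i : ℕ} {M : Tm S} {k : S} (h : VSp i M)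
    (hk : Cls P Γ M k) : Cls P Γ (Tm.var i) k := by
  induction h with
  | var => exact hk
  | app a _ ih => exact ih (cls_app hP hk).1

/-- Shapes of types or kinds. -/
inductive Sh where
  | u : Sh
  | o : Sh
  | arr : Sh → Sh → Sh
  | skip : Sh → Sh

/-- Shape of a normal type of sort `ℓ`; `o` marks the sort `b`. -/
noncomputable def shN (P : Spec S) (ℓ b : S) : List (Tm S) → Tm S → Sh
  | _, Tm.var _ => .u
  | _, Tm.sort s => if s = b then .o else .u
  | _, Tm.app _ _ => .u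
  | _, Tm.lam _ _ => .u
  | Γ, Tm.pi A B =>
      if Typ P Γ A (Tm.sort ℓ) then .arr (shN P ℓ b Γ A) (shN P ℓ b (A :: Γ) B)
      else .skip (shN P ℓ b (A :: Γ) B)

/-- Shape of a type of sort `ℓ`. -/
noncomputable def shape (P : Spec S) (ℓ b : S) (Γ : List (Tm S)) (T : Tm S) : Sh :=
  shN P ℓ b Γ (nf T)

/-- All types of sort `ℓ` are strongly normalizing. -/
def SNSort (P : Spec S) (ℓ : S) : Prop := ∀ Γ T, Typ P Γ T (Tm.sort ℓ) → SAcc T

variable {ℓ b : S}

theorem pi_of_sorted (hP : Strat P r) {Γ : List (Tm S)} {A B : Tm S}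
    (h : Typ P Γ (Tm.pi A B) (Tm.sort ℓ)) :
    ∃ d, Typ P Γ A (Tm.sort d) ∧ Typ P (A :: Γ) B (Tm.sort ℓ) ∧ P.rule d ℓ ℓ := by
  obtain ⟨d, e, f, hA, hB, hr, he⟩ := genPi' h
  obtain rfl := hP.codom _ _ _ hr
  obtain rfl := sort_inj he
  exact ⟨d, hA, hB, hr⟩

theorem sort_iff (hP : Strat P r) {Γ Δ : List (Tm S)} {τ : ℕ → Tm S} {A : Tm S} {d : S}
    (h : Typ P Γ A (Tm.sort d)) (hΔ : Wf P Δ) (hτ : SubTy P τ Γ Δ) :
    Typ P Δ (Tm.sub τ A) (Tm.sort ℓ) ↔ Typ P Γ A (Tm.sort ℓ) :=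
  ⟨fun h' => by rwa [← hP.sortUnique (h.subst hΔ hτ) h'], fun h' => h'.subst hΔ hτ⟩

theorem shN_ren (hP : Strat P r) : ∀ (T : Tm S) {Γ Δ : List (Tm S)} {f : ℕ → ℕ},
    Typ P Γ T (Tm.sort ℓ) → Wf P Δ → SubTy P (fun i => Tm.var (f i)) Γ Δ →
    shN P ℓ b Δ (Tm.ren f T) = shN P ℓ b Γ T := by
  intro T
  induction T with
  | pi A B ihA ihB =>
    intro Γ Δ f h hΔ hτ
    obtain ⟨d, hA, hB, -⟩ := pi_of_sorted hP h
    have hiff := sort_iff (ℓ := ℓ) hP hA hΔ hτ
    have hA' := hA.subst hΔ hτ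
    rw [← ren_eq_sub] at hiff hA'
    simp only [Tm.ren, shN]
    have hup : SubTy P (fun i => Tm.var (up f i)) (A :: Γ) (Tm.ren f A :: Δ) := by
      have := hτ.up hΔ (s := d) (A := A) (by rw [← ren_eq_sub]; exact hA')
      rwa [ups_ren_var, ← ren_eq_sub] at this
    rw [ihB hB (.cons hΔ hA') hup]
    by_cases hc : Typ P Γ A (Tm.sort ℓ)
    · rw [if_pos hc, if_pos (hiff.2 hc), ihA hc hΔ hτ]
    · rw [if_neg hc, if_neg (mt hiff.1 hc)]
  | var _ | sort _ | app _ _ _ _ | lam _ _ _ _ => intros; simp [Tm.ren, shN]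

theorem shape_congr (hsn : SNSort P ℓ) {Γ : List (Tm S)} {T T' : Tm S}
    (h : Typ P Γ T (Tm.sort ℓ)) (h' : Typ P Γ T' (Tm.sort ℓ)) (he : BetaEq T T') :
    shape P ℓ b Γ T = shape P ℓ b Γ T' := by
  rw [shape, shape, nf_congr (hsn _ _ h) (hsn _ _ h') he]

theorem shape_pi (hP : Strat P r) (hsn : SNSort P ℓ) {Γ : List (Tm S)} {A B : Tm S} {d : S}
    (h : Typ P Γ (Tm.pi A B) (Tm.sort ℓ)) (hA : Typ P Γ A (Tm.sort d)) :
    shape P ℓ b Γ (Tm.pi A B) =
      if d = ℓ then .arr (shape P ℓ b Γ A) (shape P ℓ b (A :: Γ) B)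
      else .skip (shape P ℓ b (A :: Γ) B) := by
  obtain ⟨d', hA', hB, -⟩ := pi_of_sorted hP h
  obtain ⟨sA, sB⟩ := (hsn _ _ h).of_pi
  have hn : Normal (Tm.pi (nf A) (nf B)) := by
    intro X hX
    cases hX with
    | piA _ h => exact nf_normal sA _ h
    | piB _ h => exact nf_normal sB _ h
  have hsteps : Relation.ReflTransGen Step (Tm.pi A B) (Tm.pi (nf A) (nf B)) :=
    ((nf_steps A).lift (fun x => Tm.pi x B) fun _ _ hh => Step.piA _ hh).trans
      ((nf_steps B).lift (fun x => Tm.pi (nf A) x) fun _ _ hh => Step.piB _ hh)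
  rw [shape, nf_eq hsteps hn]
  simp only [shN]
  have hA2 := typ_red hA (nf_steps A)
  have hBn := typ_red hB (nf_steps B)
  have hB' := shN_ren (b := b) (f := id) hP (nf B) hBn (Wf.cons hA2.wf hA2)
    (SubTy.var_conv hA hA2 (beq_symm (steps_betaEq (nf_steps A))))
  rw [ren_id] at hB'
  rw [hB']
  by_cases hd : d = ℓ
  · subst hd; rw [if_pos hA2, if_pos rfl]; rfl
  · rw [if_neg (fun h' => hd (hP.sortUnique hA2 h')), if_neg hd]; rfl

theorem shape_vsp {Γ : List (Tm S)} {i : ℕ} {M : Tm S} (h : VSp i M) :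
    shape P ℓ b Γ M = .u := by
  rw [shape]
  have h' := VSp.steps h (nf_steps M)
  generalize nf M = N at h'
  cases h' <;> rfl

/-- Shapes are invariant under substitutions that only rename the variables of the class of
types of sort `ℓ`. -/
theorem shape_sub (hP : Strat P r) (hsn : SNSort P ℓ) {Γ Δ : List (Tm S)} {τ : ℕ → Tm S}
    {T : Tm S} (h : Typ P Γ T (Tm.sort ℓ)) (hΔ : Wf P Δ) (hτ : SubTy P τ Γ Δ)
    (hv : ∀ i k, Cls P Γ (Tm.var i) k → P.ax ℓ k → ∃ j, τ i = Tm.var j) :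
    shape P ℓ b Δ (Tm.sub τ T) = shape P ℓ b Γ T := by
  suffices key : ∀ (N : Tm S) {Γ Δ : List (Tm S)} {τ : ℕ → Tm S}, Normal N →
      Typ P Γ N (Tm.sort ℓ) → Wf P Δ → SubTy P τ Γ Δ →
      (∀ i k, Cls P Γ (Tm.var i) k → P.ax ℓ k → ∃ j, τ i = Tm.var j) →
      shape P ℓ b Δ (Tm.sub τ N) = shN P ℓ b Γ N by
    have hn := typ_red h (nf_steps T)
    rw [shape_congr hsn (h.subst hΔ hτ) (hn.subst hΔ hτ) ((steps_betaEq (nf_steps T)).sub τ),
      key _ (nf_normal (hsn _ _ h)) hn hΔ hτ hv]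
    rfl
  intro N
  induction N with
  | var i =>
    intro Γ Δ τ _ h hΔ hτ hv
    obtain ⟨T', hi, -⟩ := genVar h
    obtain ⟨k, hk⟩ := look_sort h.wf hi
    have hc := cls_var h.wf hi hk
    obtain ⟨j, hj⟩ := hv i k hc (hP.cls_sorted h hc)
    exact shape_vsp (VSp.sub .var hj)
  | sort s =>
    intro Γ Δ τ hn h _ _ _
    simp only [Tm.sub, shape]
    rw [nf_eq .refl hn]
    rfl
  | app f a _ _ =>
    intro Γ Δ τ hn h hΔ hτ hv
    obtain ⟨i, hi⟩ := normal_app hP f h hn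
    obtain ⟨A, B, hf, ha, -⟩ := genApp h
    obtain ⟨_, k, -, hB⟩ := hf.typeOfPi
    have hc : Cls P Γ (Tm.app f a) k := ⟨_, .appl hf ha, hB.inst0 ha⟩
    obtain ⟨j, hj⟩ := hv i k (hi.cls hP hc) (hP.cls_sorted h hc)
    exact shape_vsp (hi.sub hj)
  | lam A M _ _ =>
    intro Γ Δ τ _ h _ _ _
    obtain ⟨_, _, -, -, he⟩ := h.genLam
    exact (sort_ne_pi (beq_symm he)).elim
  | pi A B ihA ihB =>
    intro Γ Δ τ hn h hΔ hτ hv
    obtain ⟨d, hA, hB, -⟩ := pi_of_sorted hP h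
    have hA' := hA.subst hΔ hτ
    have e := shape_pi (b := b) hP hsn (show Typ P Δ (Tm.pi (Tm.sub τ A) (Tm.sub (ups τ) B)) _
      from h.subst hΔ hτ) (show Typ P Δ _ (Tm.sort d) from hA')
    have hB' : shape P ℓ b (Tm.sub τ A :: Δ) (Tm.sub (ups τ) B) = shN P ℓ b (A :: Γ) B := by
      refine ihB (fun X hX => hn _ (.piB _ hX)) hB (.cons hΔ hA') (hτ.up hΔ hA') ?_
      intro i k hi hk
      cases i with
      | zero => exact ⟨0, rfl⟩
      | succ i =>
        obtain ⟨j, hj⟩ := hv i k (var_cls_succ hP hi) hk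
        exact ⟨j + 1, by rw [ups_succ, hj]; rfl⟩
    simp only [Tm.sub, e, shN, hB']
    by_cases hd : d = ℓ
    · subst hd
      rw [if_pos rfl, if_pos hA, ihA (fun X hX => hn _ (.piA _ hX)) hA hΔ hτ hv]
    · rw [if_neg hd, if_neg (fun h' => hd (hP.sortUnique hA h'))]

theorem shape_sh (hP : Strat P r) (hsn : SNSort P ℓ) {Γ : List (Tm S)} {A T : Tm S}
    (h : Typ P Γ T (Tm.sort ℓ)) (hw : Wf P (A :: Γ)) :
    shape P ℓ b (A :: Γ) (sh T) = shape P ℓ b Γ T := by
  rw [sh, ren_eq_sub]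
  exact shape_sub hP hsn h hw (RenTy.subTy (RenTy.succ A Γ) hw) fun i _ _ _ => ⟨i + 1, rfl⟩

variable {c : S}

/-- The candidate of a shape. -/
noncomputable def interp (c : S) : Sh → Cand S
  | .u => .top
  | .o => .top
  | .arr a b => .arrow (interp c a) (interp c b)
  | .skip b => .skip c (interp c b)

theorem shape_inst (hP : Strat P r) (hsn : SNSort P c) (hno : ∀ k, P.ax c k → ¬ P.rule k c c)
    {Γ : List (Tm S)} {A B a : Tm S} {d : S} (hA : Typ P Γ A (Tm.sort d))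
    (hB : Typ P (A :: Γ) B (Tm.sort c)) (hr : P.rule d c c) (ha : Typ P Γ a A) :
    shape P c c Γ (inst B a) = shape P c c (A :: Γ) B := by
  refine shape_sub hP hsn hB ha.wf (SubTy.single ha) fun i k hi hk => ?_
  cases i with
  | zero =>
    obtain rfl := Cls.unique hP (⟨_, .start hA, .weak hA hA⟩ : Cls P (A :: Γ) (Tm.var 0) d) hi
    exact (hno _ hk hr).elim
  | succ i => exact ⟨i, rfl⟩

/-- The model when types of sort `c` are never instantiated. -/
noncomputable def shapeModel (hP : Strat P r) (hsn : SNSort P c)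
    (hno : ∀ k, P.ax c k → ¬ P.rule k c c) : Model P c where
  Env _ := PUnit.{1}
  I Γ _ T := interp c (shape P c c Γ T)
  init _ _ := ⟨⟨⟩⟩
  conv Γ _ T T' h h' he := by rw [shape_congr hsn h h' he]
  ext Γ A d _ hA := ⟨⟨⟩, fun T hT => by rw [shape_sh hP hsn hT (.cons hA.wf hA)]⟩
  app Γ A B a d _ hA hB hr ha t u ht hu hu' := by
    rw [shape_pi hP hsn (.prod hA hB hr) hA] at ht
    rw [shape_inst hP hsn hno hA hB hr ha]
    by_cases hd : d = c
    · rw [if_pos hd] at ht; exact ht u (hu hd)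
    · rw [if_neg hd] at ht; rw [hu' hd]; exact ht
  lam Γ A B d e hA hB hr l M hl _ h := by
    rw [shape_pi hP hsn (.prod hA hB hr) hA]
    have hext : ∀ T, Typ P Γ T (Tm.sort c) →
        interp c (shape P c c (A :: Γ) (sh T)) = interp c (shape P c c Γ T) :=
      fun T hT => by rw [shape_sh hP hsn hT (.cons hA.wf hA)]
    by_cases hd : d = c
    · rw [if_pos hd]
      refine Cand.lam_arrow hl fun u hu => h ⟨⟩ hext u (fun _ => ?_) (fun h' => absurd hd h')
      rw [hext A (hd ▸ hA)]; exact hu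
    · rw [if_neg hd]
      exact Cand.lam_skip hl (h ⟨⟩ hext _ (fun h' => absurd h' hd) fun _ => rfl)

end Vale.Agent.P340S
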