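import Vale.Agent.P340S.Basic
import Vale.Agent.P340.Norm

namespace Vale.Agent.P340S

open Vale.Agent.P340 Vale.Agent.P340.Tm
open Classical

variable {S : Type*}

/-- The sort of a typed expression `A` (and `c` if there is none). -/
noncomputable def dsort (P : Spec S) (c : S) (Γ : List (Tm S)) (A : Tm S) : S :=
  if h : ∃ d, Typ P Γ A (Tm.sort d) then Classical.choose h else c

/-- The class-`c` skeleton: maximal subexpressions of another class are replaced by `sort c`,
annotations by the sort of the binder. -/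
noncomputable def sk (P : Spec S) (c : S) : List (Tm S) → Tm S → Tm S
  | _, Tm.var i => Tm.var i
  | _, Tm.sort s => Tm.sort s
  | Γ, Tm.app f a => Tm.app (sk P c Γ f) (if Cls P Γ a c then sk P c Γ a else Tm.sort c)
  | Γ, Tm.lam A M => Tm.lam (Tm.sort (dsort P c Γ A)) (sk P c (A :: Γ) M)
  | Γ, Tm.pi A B =>
      Tm.pi (Tm.app (Tm.app (Tm.sort (dsort P c Γ A)) (Tm.sort (dsort P c (A :: Γ) B)))
        (if Cls P Γ A c then sk P c Γ A else Tm.sort c)) (sk P c (A :: Γ) B)

/-- The size of an expression. -/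
def size : Tm S → ℕ
  | Tm.var _ => 1
  | Tm.sort _ => 1
  | Tm.app f a => size f + size a + 1
  | Tm.lam A M => size A + size M + 1
  | Tm.pi A B => size A + size B + 1

theorem size_ren (f : ℕ → ℕ) (M : Tm S) : size (Tm.ren f M) = size M := by
  induction M generalizing f <;> simp_all [size, Tm.ren]

theorem ups_succ (σ : ℕ → Tm S) (i : ℕ) : ups σ (i + 1) = sh (σ i) := rfl

variable {P : Spec S} {r : S → ℤ} {c : S}

theorem dsort_eq (hP : Strat P r) {Γ : List (Tm S)} {A : Tm S} {d : S}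
    (h : Typ P Γ A (Tm.sort d)) : dsort P c Γ A = d := by
  have h' : ∃ d, Typ P Γ A (Tm.sort d) := ⟨d, h⟩
  unfold dsort
  rw [dif_pos h']
  exact hP.sortUnique (Classical.choose_spec h') h

theorem not_cls_sort (hP : Strat P r) {Γ : List (Tm S)} : ¬ Cls P Γ (Tm.sort c) c := by
  rintro ⟨T, h1, h2⟩
  obtain ⟨b, hb, he⟩ := genSort' h1
  obtain ⟨b', hb', he'⟩ := genSort' (h2.sortOfBetaEq he)
  obtain rfl := sort_inj he'
  have := hP.axRank _ _ hb
  have := hP.axRank _ _ hb'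
  omega

theorem sk_ne_hole (hP : Strat P r) {Γ : List (Tm S)} {M : Tm S} (h : Cls P Γ M c) :
    sk P c Γ M ≠ Tm.sort c := by
  cases M <;> simp only [sk, ne_eq, reduceCtorEq, not_false_eq_true, Tm.sort.injEq]
  rintro rfl
  exact not_cls_sort hP h

theorem var_cls_succ (hP : Strat P r) {Γ : List (Tm S)} {A : Tm S} {i : ℕ}
    (h : Cls P (A :: Γ) (Tm.var (i + 1)) c) : Cls P Γ (Tm.var i) c := by
  obtain ⟨T, h1, -⟩ := id h
  obtain ⟨T', hi, -⟩ := genVar h1
  cases hi with
  | succ _ hi =>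
    cases h1.wf with
    | cons hΓ _ => exact (Cls.ren_iff hP (hΓ.varTyp hi) h1.wf (RenTy.succ A Γ)).1 h

theorem sk_ren (hP : Strat P r) : ∀ (M : Tm S) {Γ Δ : List (Tm S)} {f : ℕ → ℕ},
    Cls P Γ M c → Wf P Δ → RenTy f Γ Δ → sk P c Δ (Tm.ren f M) = Tm.ren f (sk P c Γ M) := by
  intro M
  induction M with
  | var i => intros; rfl
  | sort s => intros; rfl
  | app g a ihg iha =>
    intro Γ Δ f h hΔ hf
    obtain ⟨hg, A, B, d, -, ha, -, -, -⟩ := cls_app hP h
    simp only [Tm.ren, sk, ihg hg hΔ hf]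
    by_cases hc : Cls P Γ a c
    · rw [if_pos hc, if_pos ((Cls.ren_iff hP ha hΔ hf).2 hc), iha hc hΔ hf]
    · rw [if_neg hc, if_neg (mt (Cls.ren_iff hP ha hΔ hf).1 hc)]; rfl
  | lam A M _ ihM =>
    intro Γ Δ f h hΔ hf
    obtain ⟨B, d, hM, hA, hB, -⟩ := cls_lam hP h
    have hA' := hA.rename hΔ hf
    simp only [Tm.ren, sk, dsort_eq hP hA, dsort_eq hP (show Typ P Δ _ (Tm.sort d) from hA'),
      ihM ⟨B, hM, hB⟩ (.cons hΔ hA') (hf.up A)]
  | pi A B ihA ihB =>
    intro Γ Δ f h hΔ hf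
    obtain ⟨d, e, hA, hB, -, -, hBc⟩ := cls_pi hP h
    have hA' := hA.rename hΔ hf
    have hB' := hB.rename (.cons hΔ hA') (hf.up A)
    simp only [Tm.ren, sk, dsort_eq hP hA, dsort_eq hP hB,
      dsort_eq hP (show Typ P Δ _ (Tm.sort d) from hA'),
      dsort_eq hP (show Typ P (Tm.ren f A :: Δ) _ (Tm.sort e) from hB'),
      ihB hBc (.cons hΔ hA') (hf.up A)]
    by_cases hc : Cls P Γ A c
    · rw [if_pos hc, if_pos ((Cls.ren_iff hP hA hΔ hf).2 hc), ihA hc hΔ hf]
    · rw [if_neg hc, if_neg (mt (Cls.ren_iff hP hA hΔ hf).1 hc)]; rfl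

theorem agree_ups (hP : Strat P r) {Γ Δ : List (Tm S)} {τ ρ : ℕ → Tm S} {A : Tm S} {d : S}
    (hτ : SubTy P τ Γ Δ) (hA : Typ P Δ (Tm.sub τ A) (Tm.sort d))
    (hρ : ∀ i, Cls P Γ (Tm.var i) c → ρ i = sk P c Δ (τ i)) :
    ∀ i, Cls P (A :: Γ) (Tm.var i) c → ups ρ i = sk P c (Tm.sub τ A :: Δ) (ups τ i) := by
  intro i hi
  cases i with
  | zero => rfl
  | succ i =>
    have h' := var_cls_succ hP hi
    have hc : Cls P Δ (τ i) c := h'.sub hA.wf hτ
    rw [ups_succ, ups_succ, hρ i h']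
    exact (sk_ren hP (τ i) hc (.cons hA.wf hA) (RenTy.succ _ Δ)).symm

theorem sk_sub (hP : Strat P r) : ∀ (M : Tm S) {Γ Δ : List (Tm S)} {τ ρ : ℕ → Tm S},
    Cls P Γ M c → Wf P Δ → SubTy P τ Γ Δ →
    (∀ i, Cls P Γ (Tm.var i) c → ρ i = sk P c Δ (τ i)) →
    sk P c Δ (Tm.sub τ M) = Tm.sub ρ (sk P c Γ M) := by
  intro M
  induction M with
  | var i => intro Γ Δ τ ρ h _ _ hρ; exact (hρ i h).symm
  | sort s => intros; rfl
  | app g a ihg iha =>
    intro Γ Δ τ ρ h hΔ hτ hρ
    obtain ⟨hg, A, B, d, -, ha, -, -, -⟩ := cls_app hP h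
    simp only [Tm.sub, sk, ihg hg hΔ hτ hρ]
    by_cases hc : Cls P Γ a c
    · rw [if_pos hc, if_pos ((Cls.sub_iff hP ha hΔ hτ).2 hc), iha hc hΔ hτ hρ]
    · rw [if_neg hc, if_neg (mt (Cls.sub_iff hP ha hΔ hτ).1 hc)]; rfl
  | lam A M _ ihM =>
    intro Γ Δ τ ρ h hΔ hτ hρ
    obtain ⟨B, d, hM, hA, hB, -⟩ := cls_lam hP h
    have hA' := hA.subst hΔ hτ
    simp only [Tm.sub, sk, dsort_eq hP hA, dsort_eq hP (show Typ P Δ _ (Tm.sort d) from hA'),
      ihM ⟨B, hM, hB⟩ (.cons hΔ hA') (hτ.up hΔ hA') (agree_ups hP hτ hA' hρ)]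
  | pi A B ihA ihB =>
    intro Γ Δ τ ρ h hΔ hτ hρ
    obtain ⟨d, e, hA, hB, -, -, hBc⟩ := cls_pi hP h
    have hA' := hA.subst hΔ hτ
    have hB' := hB.subst (.cons hΔ hA') (hτ.up hΔ hA')
    simp only [Tm.sub, sk, dsort_eq hP hA, dsort_eq hP hB,
      dsort_eq hP (show Typ P Δ _ (Tm.sort d) from hA'),
      dsort_eq hP (show Typ P (Tm.sub τ A :: Δ) _ (Tm.sort e) from hB'),
      ihB hBc (.cons hΔ hA') (hτ.up hΔ hA') (agree_ups hP hτ hA' hρ)]
    by_cases hc : Cls P Γ A c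
    · rw [if_pos hc, if_pos ((Cls.sub_iff hP hA hΔ hτ).2 hc), ihA hc hΔ hτ hρ]
    · rw [if_neg hc, if_neg (mt (Cls.sub_iff hP hA hΔ hτ).1 hc)]; rfl

theorem sk_conv (hP : Strat P r) {Γ : List (Tm S)} {A A' M : Tm S} {d d' : S}
    (h : Cls P (A :: Γ) M c) (hA : Typ P Γ A (Tm.sort d)) (hA' : Typ P Γ A' (Tm.sort d'))
    (he : BetaEq A' A) : sk P c (A' :: Γ) M = sk P c (A :: Γ) M := by
  have := sk_sub (ρ := Tm.var) hP M h (.cons hA'.wf hA') (SubTy.var_conv hA hA' he)
    (fun i _ => rfl)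
  rwa [sub_var, sub_var] at this

/-- Substitution of the last variable, seen on skeletons; `ρ` is arbitrary at `0` unless that
variable has class `c`. -/
theorem sk_inst (hP : Strat P r) {Γ : List (Tm S)} {A M N : Tm S} {ρ : ℕ → Tm S}
    (h : Cls P (A :: Γ) M c) (hN : Typ P Γ N A) (h0 : Cls P (A :: Γ) (Tm.var 0) c →
      ρ 0 = sk P c Γ N) (hs : ∀ i, ρ (i + 1) = Tm.var i) :
    sk P c Γ (inst M N) = Tm.sub ρ (sk P c (A :: Γ) M) :=
  sk_sub hP M h hN.wf (SubTy.single hN) fun i hi => by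
    cases i with
    | zero => exact h0 hi
    | succ i => exact hs i

/-- A silent step: reduction inside a part erased by the skeleton `u`. -/
inductive Sil (c : S) : Tm S → Tm S → Tm S → Prop where
  | appL {u v f f' a : Tm S} : Sil c u f f' → Sil c (Tm.app u v) (Tm.app f a) (Tm.app f' a)
  | appR {u v f a a' : Tm S} : Sil c v a a' → Sil c (Tm.app u v) (Tm.app f a) (Tm.app f a')
  | appH {u f a a' : Tm S} : Step a a' →
      Sil c (Tm.app u (Tm.sort c)) (Tm.app f a) (Tm.app f a')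
  | lamA {l u A A' M : Tm S} : Step A A' → Sil c (Tm.lam l u) (Tm.lam A M) (Tm.lam A' M)
  | lamM {l u A M M' : Tm S} : Sil c u M M' → Sil c (Tm.lam l u) (Tm.lam A M) (Tm.lam A M')
  | piA {g v u A A' B : Tm S} : Sil c v A A' →
      Sil c (Tm.pi (Tm.app g v) u) (Tm.pi A B) (Tm.pi A' B)
  | piH {g u A A' B : Tm S} : Step A A' →
      Sil c (Tm.pi (Tm.app g (Tm.sort c)) u) (Tm.pi A B) (Tm.pi A' B)
  | piB {g v u A B B' : Tm S} : Sil c u B B' →
      Sil c (Tm.pi (Tm.app g v) u) (Tm.pi A B) (Tm.pi A B')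

theorem cls_step_iff (hP : Strat P r) {Γ : List (Tm S)} {M M' T : Tm S}
    (h : Typ P Γ M T) (hs : Step M M') : Cls P Γ M' c ↔ Cls P Γ M c := by
  refine ⟨fun h' => ?_, fun h' => h'.step hs⟩
  rcases cls_or_top h with ⟨d, hd⟩ | ⟨s, hs'⟩
  · rwa [(hd.step hs).unique hP h'] at hd
  · exact (h'.not_top hP (hs'.step hs)).elim

/-- Every step is a skeleton step or a silent step. -/
theorem sim (hP : Strat P r) {M M' : Tm S} (hs : Step M M') : ∀ {Γ : List (Tm S)},
    Cls P Γ M c →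
      (Step (sk P c Γ M) (sk P c Γ M') ∧
        (¬ P.rule c c c → size (sk P c Γ M') < size (sk P c Γ M))) ∨
      (Sil c (sk P c Γ M) M M' ∧ sk P c Γ M' = sk P c Γ M) := by
  induction hs with
  | beta A P0 N =>
    intro Γ h
    obtain ⟨hl, A', B', d', hf, hN, hA', -, hr'⟩ := cls_app hP h
    obtain ⟨B, d, hM, hA, hB, hr⟩ := cls_lam hP hl
    obtain ⟨B0, s0, -, -, he⟩ := hf.genLam
    have hNA : Typ P Γ N A := .conv hN hA (beq_symm (betaEq_pi_inv he).1)
    have h0 : Cls P (A :: Γ) (Tm.var 0) d := ⟨_, .start hA, .weak hA hA⟩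
    have hNd : Cls P Γ N d := ⟨A, hNA, hA⟩
    refine .inl ⟨?_, fun hno => ?_⟩
    · rw [show sk P c Γ (inst P0 N) = inst (sk P c (A :: Γ) P0)
          (if Cls P Γ N c then sk P c Γ N else Tm.sort c) from
        sk_inst hP ⟨B, hM, hB⟩ hNA
          (fun h1 => by
            have e := h0.unique hP h1
            show (if Cls P Γ N c then sk P c Γ N else Tm.sort c) = _
            rw [if_pos (e ▸ hNd)])
          (fun i => rfl)]
      exact .beta _ _ _
    · have hdc : d ≠ c := fun e => hno (by subst e; exact hr)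
      rw [sk_inst (ρ := fun i => Tm.var (i - 1)) hP ⟨B, hM, hB⟩ hNA
        (fun h1 => (hdc (h0.unique hP h1)).elim) (fun i => rfl),
        show Tm.sub (fun i => Tm.var (i - 1)) (sk P c (A :: Γ) P0)
          = Tm.ren (fun i => i - 1) (sk P c (A :: Γ) P0) from (ren_eq_sub _ _).symm, size_ren]
      simp only [sk, size]
      omega
  | @appL f f' a _ ih =>
    intro Γ h
    rcases ih (cls_app hP h).1 with ⟨h1, h2⟩ | ⟨h1, h2⟩
    · refine .inl ⟨by simp only [sk]; exact .appL _ h1, fun hno => ?_⟩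
      have := h2 hno
      simp only [sk, size]; omega
    · exact .inr ⟨by simp only [sk]; exact .appL h1, by simp only [sk, h2]⟩
  | @appR f a a' hs ih =>
    intro Γ h
    obtain ⟨-, A, B, d, -, ha, -, -, -⟩ := cls_app hP h
    have hiff := cls_step_iff (c := c) hP ha hs
    by_cases hc : Cls P Γ a c
    · simp only [sk, if_pos hc, if_pos (hiff.2 hc)]
      rcases ih hc with ⟨h1, h2⟩ | ⟨h1, h2⟩
      · refine .inl ⟨.appR _ h1, fun hno => ?_⟩
        have := h2 hno
        simp only [size]; omega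
      · exact .inr ⟨.appR h1, by rw [h2]⟩
    · simp only [sk, if_neg hc, if_neg (mt hiff.1 hc)]
      exact .inr ⟨.appH hs, trivial⟩
  | @lamA A A' M hs _ =>
    intro Γ h
    obtain ⟨B, d, hM, hA, hB, -⟩ := cls_lam hP h
    have hA' := hA.step hs
    refine .inr ⟨by simp only [sk]; exact .lamA hs, ?_⟩
    simp only [sk, dsort_eq hP hA, dsort_eq hP hA',
      sk_conv hP ⟨B, hM, hB⟩ hA hA' (beq_symm (.rel _ _ hs))]
  | @lamM A M M' _ ih =>
    intro Γ h
    obtain ⟨B, d, hM, hA, hB, -⟩ := cls_lam hP h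
    rcases ih ⟨B, hM, hB⟩ with ⟨h1, h2⟩ | ⟨h1, h2⟩
    · refine .inl ⟨by simp only [sk]; exact .lamM _ h1, fun hno => ?_⟩
      have := h2 hno
      simp only [sk, size]; omega
    · exact .inr ⟨by simp only [sk]; exact .lamM h1, by simp only [sk, h2]⟩
  | @piA A A' B hs ih =>
    intro Γ h
    obtain ⟨d, e, hA, hB, -, -, hBc⟩ := cls_pi hP h
    have hA' := hA.step hs
    have he : BetaEq A' A := beq_symm (.rel _ _ hs)
    have hB' := hB.convCtx hA hA' he
    have hiff := cls_step_iff (c := c) hP hA hs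
    simp only [sk, dsort_eq hP hA, dsort_eq hP hA', dsort_eq hP hB, dsort_eq hP hB',
      sk_conv hP hBc hA hA' he]
    by_cases hc : Cls P Γ A c
    · simp only [if_pos hc, if_pos (hiff.2 hc)]
      rcases ih hc with ⟨h1, h2⟩ | ⟨h1, h2⟩
      · refine .inl ⟨.piA _ (.appR _ h1), fun hno => ?_⟩
        have := h2 hno
        simp only [size]; omega
      · exact .inr ⟨.piA h1, by rw [h2]⟩
    · simp only [if_neg hc, if_neg (mt hiff.1 hc)]
      exact .inr ⟨.piH hs, trivial⟩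
  | @piB A B B' hs ih =>
    intro Γ h
    obtain ⟨d, e, hA, hB, -, -, hBc⟩ := cls_pi hP h
    simp only [sk, dsort_eq hP hA, dsort_eq hP hB, dsort_eq hP (hB.step hs)]
    rcases ih hBc with ⟨h1, h2⟩ | ⟨h1, h2⟩
    · refine .inl ⟨.piB _ h1, fun hno => ?_⟩
      have := h2 hno
      simp only [size]; omega
    · exact .inr ⟨.piB h1, by rw [h2]⟩

/-- All expressions of a higher class are strongly normalizing. -/
def Hi (P : Spec S) (r : S → ℤ) (c : S) : Prop :=
  ∀ d, r c < r d → ∀ Γ M, Cls P Γ M d → SAcc M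

theorem top_sn (hP : Strat P r) (hi : Hi P r c) : ∀ (M : Tm S) {Γ : List (Tm S)} {s : S},
    TopT P Γ M s → r c ≤ r s → SAcc M := by
  intro M
  induction M with
  | pi A B ihA ihB =>
    intro Γ s h hs
    rcases top_cases hP h with ⟨t, e⟩ | ⟨A', B', d, e, hA, hB, hr⟩
    · cases e
    · cases e
      refine SAcc.pi ?_ (ihB hB hs)
      have hd : r s ≤ r d := by
        rcases hP.ruleRank _ _ _ hr with rfl | h' <;> omega
      by_cases hb : ∃ e, P.ax d e
      · obtain ⟨e, he⟩ := hb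
        exact hi e (by have := hP.axRank _ _ he; omega) _ _ (cls_of_sorted hA he)
      · exact ihA ⟨hA, fun b hb' => hb ⟨b, hb'⟩⟩ (by omega)
  | sort t => intros; exact SAcc.sort t
  | var i => intros; exact SAcc.var i
  | app f a _ _ =>
    intro Γ s h _
    rcases top_cases hP h with ⟨t, e⟩ | ⟨A', B', d, e, -⟩ <;> cases e
  | lam A M _ _ =>
    intro Γ s h _
    rcases top_cases hP h with ⟨t, e⟩ | ⟨A', B', d, e, -⟩ <;> cases e

theorem dom_sn (hP : Strat P r) (hi : Hi P r c) {Γ : List (Tm S)} {A : Tm S} {d : S}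
    (hA : Typ P Γ A (Tm.sort d)) (hd : r c ≤ r d) : SAcc A := by
  by_cases hb : ∃ e, P.ax d e
  · obtain ⟨e, he⟩ := hb
    exact hi e (by have := hP.axRank _ _ he; omega) _ _ (cls_of_sorted hA he)
  · exact top_sn hP hi A ⟨hA, fun b hb' => hb ⟨b, hb'⟩⟩ hd

theorem acc_app {c : S} {u v : Tm S} {f : Tm S} (hf : Acc (fun x y => Sil c u y x) f) :
    ∀ {a : Tm S}, Acc (fun x y => Sil c v y x ∨ (v = Tm.sort c ∧ Step y x)) a →
      Acc (fun x y => Sil c (Tm.app u v) y x) (Tm.app f a) := by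
  induction hf with
  | intro f _ ihf =>
    intro a ha
    induction ha with
    | intro a ha' iha =>
      refine ⟨_, fun x hx => ?_⟩
      cases hx with
      | appL h => exact ihf _ h ⟨_, ha'⟩
      | appR h => exact iha _ (.inl h)
      | appH h => exact iha _ (.inr ⟨rfl, h⟩)

theorem acc_lam {c : S} {l u : Tm S} {A : Tm S} (hA : SAcc A) :
    ∀ {M : Tm S}, Acc (fun x y => Sil c u y x) M →
      Acc (fun x y => Sil c (Tm.lam l u) y x) (Tm.lam A M) := by
  induction hA with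
  | intro A _ ihA =>
    intro M hM
    induction hM with
    | intro M hM' ihM =>
      refine ⟨_, fun x hx => ?_⟩
      cases hx with
      | lamA h => exact ihA _ h ⟨_, hM'⟩
      | lamM h => exact ihM _ h

theorem acc_pi {c : S} {g v u : Tm S} {A : Tm S}
    (hA : Acc (fun x y => Sil c v y x ∨ (v = Tm.sort c ∧ Step y x)) A) :
    ∀ {B : Tm S}, Acc (fun x y => Sil c u y x) B →
      Acc (fun x y => Sil c (Tm.pi (Tm.app g v) u) y x) (Tm.pi A B) := by
  induction hA with
  | intro A _ ihA =>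
    intro B hB
    induction hB with
    | intro B hB' ihB =>
      refine ⟨_, fun x hx => ?_⟩
      cases hx with
      | piA h => exact ihA _ (.inl h) ⟨_, hB'⟩
      | piH h => exact ihA _ (.inr ⟨rfl, h⟩) ⟨_, hB'⟩
      | piB h => exact ihB _ h

theorem sil_acc (hP : Strat P r) (hi : Hi P r c) : ∀ (M : Tm S) {Γ : List (Tm S)},
    Cls P Γ M c → Acc (fun x y => Sil c (sk P c Γ M) y x) M := by
  intro M
  induction M with
  | var i => intro Γ _; exact ⟨_, fun x hx => by cases hx⟩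
  | sort s => intro Γ _; exact ⟨_, fun x hx => by cases hx⟩
  | app f a ihf iha =>
    intro Γ h
    obtain ⟨hf, A, B, d, -, ha, hA, -, hr⟩ := cls_app hP h
    simp only [sk]
    refine acc_app (ihf hf) ?_
    by_cases hc : Cls P Γ a c
    · rw [if_pos hc]
      refine Subrelation.accessible ?_ (iha hc)
      rintro x y (h' | ⟨e, -⟩)
      · exact h'
      · exact (sk_ne_hole hP hc e).elim
    · rw [if_neg hc]
      have hd : r c < r d := by
        rcases hP.ruleRank _ _ _ hr with rfl | h'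
        · exact (hc ⟨A, ha, hA⟩).elim
        · exact h'
      refine Subrelation.accessible ?_ (hi d hd _ _ ⟨A, ha, hA⟩)
      rintro x y (h' | ⟨-, h'⟩)
      · cases h'
      · exact h'
  | lam A M _ ihM =>
    intro Γ h
    obtain ⟨B, d, hM, hA, hB, hr⟩ := cls_lam hP h
    simp only [sk]
    refine acc_lam (dom_sn hP hi hA ?_) (ihM ⟨B, hM, hB⟩)
    rcases hP.ruleRank _ _ _ hr with rfl | h' <;> omega
  | pi A B ihA ihB =>
    intro Γ h
    obtain ⟨d, e, hA, -, hr, hax, hBc⟩ := cls_pi hP h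
    simp only [sk]
    refine acc_pi ?_ (ihB hBc)
    by_cases hc : Cls P Γ A c
    · rw [if_pos hc]
      refine Subrelation.accessible ?_ (ihA hc)
      rintro x y (h' | ⟨e', -⟩)
      · exact h'
      · exact (sk_ne_hole hP hc e').elim
    · rw [if_neg hc]
      have hd : r c ≤ r d := by
        have := hP.axRank _ _ hax
        rcases hP.ruleRank _ _ _ hr with rfl | h'
        · exact (hc (cls_of_sorted hA hax)).elim
        · omega
      refine Subrelation.accessible ?_ (dom_sn hP hi hA hd)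
      rintro x y (h' | ⟨-, h'⟩)
      · cases h'
      · exact h'

/-- Strong normalization lifts from a well-founded skeleton reduction. -/
theorem lift (hP : Strat P r) (hi : Hi P r c) (R : Tm S → Tm S → Prop)
    (hR : ∀ u u', Step u u' → (¬ P.rule c c c → size u' < size u) → R u' u)
    {u : Tm S} (hu : Acc R u) : ∀ {Γ : List (Tm S)} {M : Tm S},
      Cls P Γ M c → sk P c Γ M = u → SAcc M := by
  induction hu with
  | intro u _ ihu =>
    intro Γ M h e
    have ha := sil_acc hP hi M h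
    rw [e] at ha
    induction ha with
    | intro M _ ihM =>
      refine ⟨_, fun M' hs => ?_⟩
      rcases sim (c := c) hP hs h with ⟨h1, h2⟩ | ⟨h1, h2⟩
      · rw [e] at h1 h2
        exact ihu _ (hR _ _ h1 h2) (h.step hs) rfl
      · exact ihM M' (e ▸ h1) (h.step hs) (h2.trans e)

theorem lift_sn (hP : Strat P r) (hi : Hi P r c) {Γ : List (Tm S)} {M : Tm S}
    (h : Cls P Γ M c) (hu : SAcc (sk P c Γ M)) : SAcc M :=
  lift hP hi _ (fun _ _ h _ => h) hu h rfl

/-- Case without the rule `(c, c)`: contractions shrink the skeleton. -/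
theorem sn_no_arrow (hP : Strat P r) (hi : Hi P r c) (hno : ¬ P.rule c c c)
    {Γ : List (Tm S)} {M : Tm S} (h : Cls P Γ M c) : SAcc M :=
  lift hP hi (fun x y => size x < size y) (fun _ _ _ h' => h' hno)
    ((InvImage.wf size Nat.lt_wfRel.wf).apply _) h rfl

end Vale.Agent.P340S
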