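import Vale.Agent.P340S.Shape

namespace Vale.Agent.P340S

open Vale.Agent.P340 Vale.Agent.P340.Tm
open Classical

variable {S : Type*}

/-- All free variables are below `n`. -/
def Bd : ℕ → Tm S → Prop
  | n, Tm.var i => i < n
  | _, Tm.sort _ => True
  | n, Tm.app f a => Bd n f ∧ Bd n a
  | n, Tm.lam A M => Bd n A ∧ Bd (n + 1) M
  | n, Tm.pi A B => Bd n A ∧ Bd (n + 1) B

theorem Bd.mono : ∀ (M : Tm S) {n m : ℕ}, Bd n M → n ≤ m → Bd m M := by
  intro M
  induction M with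
  | var i => intro n m h hm; simp only [Bd] at h ⊢; omega
  | sort s => intros; trivial
  | app f a i1 i2 => intro n m h hm; exact ⟨i1 h.1 hm, i2 h.2 hm⟩
  | lam A M i1 i2 => intro n m h hm; exact ⟨i1 h.1 hm, i2 h.2 (Nat.succ_le_succ hm)⟩
  | pi A M i1 i2 => intro n m h hm; exact ⟨i1 h.1 hm, i2 h.2 (Nat.succ_le_succ hm)⟩

theorem Bd.ren : ∀ (M : Tm S) {n m : ℕ} {f : ℕ → ℕ}, Bd n M → (∀ i, i < n → f i < m) →
    Bd m (Tm.ren f M) := by
  intro M
  induction M with
  | var i => intro n m f h hf; exact hf i h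
  | sort s => intros; trivial
  | app g a i1 i2 => intro n m f h hf; exact ⟨i1 h.1 hf, i2 h.2 hf⟩
  | lam A M i1 i2 | pi A M i1 i2 =>
    intro n m f h hf
    refine ⟨i1 h.1 hf, i2 h.2 fun i hi => ?_⟩
    cases i with
    | zero => exact Nat.succ_pos _
    | succ i => exact Nat.succ_lt_succ (hf i (Nat.lt_of_succ_lt_succ hi))

theorem Bd.sub : ∀ (M : Tm S) {n m : ℕ} {σ : ℕ → Tm S}, Bd n M → (∀ i, i < n → Bd m (σ i)) →
    Bd m (Tm.sub σ M) := by
  intro M
  induction M with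
  | var i => intro n m σ h hf; exact hf i h
  | sort s => intros; trivial
  | app g a i1 i2 => intro n m σ h hf; exact ⟨i1 h.1 hf, i2 h.2 hf⟩
  | lam A M i1 i2 | pi A M i1 i2 =>
    intro n m σ h hf
    refine ⟨i1 h.1 hf, i2 h.2 fun i hi => ?_⟩
    cases i with
    | zero => exact Nat.succ_pos _
    | succ i =>
      exact Bd.ren _ (hf i (Nat.lt_of_succ_lt_succ hi)) fun j hj => Nat.succ_lt_succ hj

theorem Bd.inst {n : ℕ} {M N : Tm S} (h : Bd (n + 1) M) (hN : Bd n N) :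
    Bd n (Tm.inst M N) :=
  Bd.sub M h fun i hi => by
    cases i with
    | zero => exact hN
    | succ i => show i < n; omega

theorem Bd.step {M M' : Tm S} (hs : Step M M') : ∀ {n : ℕ}, Bd n M → Bd n M' := by
  induction hs with
  | beta A M N => intro n h; exact h.1.2.inst h.2
  | appL N _ ih => intro n h; exact ⟨ih h.1, h.2⟩
  | appR M _ ih => intro n h; exact ⟨h.1, ih h.2⟩
  | lamA M _ ih => intro n h; exact ⟨ih h.1, h.2⟩
  | lamM A _ ih => intro n h; exact ⟨h.1, ih h.2⟩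
  | piA M _ ih => intro n h; exact ⟨ih h.1, h.2⟩
  | piB A _ ih => intro n h; exact ⟨h.1, ih h.2⟩

theorem ren_congr_bd : ∀ (M : Tm S) {n : ℕ} {f g : ℕ → ℕ}, Bd n M →
    (∀ i, i < n → f i = g i) → Tm.ren f M = Tm.ren g M := by
  intro M
  induction M with
  | var i => intro n f g h hf; simp only [Tm.ren, hf i h]
  | sort s => intros; rfl
  | app u a i1 i2 => intro n f g h hf; simp only [Tm.ren, i1 h.1 hf, i2 h.2 hf]
  | lam A M i1 i2 | pi A M i1 i2 =>
    intro n f g h hf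
    simp only [Tm.ren, i1 h.1 hf]
    rw [i2 h.2 (f := up f) (g := up g) fun i hi => by
      cases i with
      | zero => rfl
      | succ i => show f i + 1 = g i + 1; rw [hf i (Nat.lt_of_succ_lt_succ hi)]]

theorem Bd.of_look {Γ : List (Tm S)} {P : Spec S} (hΓ : Wf P Γ)
    (hd : ∀ {Δ : List (Tm S)} {A : Tm S} {s : S}, Typ P Δ A (Tm.sort s) → Bd Δ.length A)
    {i : ℕ} {T : Tm S} (h : Look Γ i T) : i < Γ.length ∧ Bd Γ.length T := by
  induction h with
  | zero A Γ =>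
    cases hΓ with
    | cons _ hA => exact ⟨Nat.succ_pos _, (hd hA).ren A fun j hj => Nat.succ_lt_succ hj⟩
  | succ A _ ih =>
    cases hΓ with
    | cons hΓ _ =>
      obtain ⟨h1, h2⟩ := ih hΓ
      exact ⟨Nat.succ_lt_succ h1, h2.ren _ fun j hj => Nat.succ_lt_succ hj⟩

theorem typ_bd {P : Spec S} {Γ : List (Tm S)} {M T : Tm S} (h : Typ P Γ M T) :
    Bd Γ.length M ∧ Bd Γ.length T := by
  induction h with
  | sortAx _ => exact ⟨trivial, trivial⟩
  | start _ ih => exact ⟨Nat.succ_pos _, ih.1.ren _ fun j hj => Nat.succ_lt_succ hj⟩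
  | weak _ _ ih _ =>
    exact ⟨ih.1.ren _ fun j hj => Nat.succ_lt_succ hj, ih.2.ren _ fun j hj => Nat.succ_lt_succ hj⟩
  | prod _ _ _ ihA ihB => exact ⟨⟨ihA.1, ihB.1⟩, trivial⟩
  | abst _ _ ihM ihP => exact ⟨⟨ihP.1.1, ihM.1⟩, ihP.1⟩
  | appl _ _ ihM ihN => exact ⟨⟨ihM.1, ihN.1⟩, ihM.2.2.inst ihN.1⟩
  | conv _ _ _ ihM ihB => exact ⟨ihM.1, ihB.1⟩

/-- Conversion between de Bruijn indices and levels in a context of length `n`. -/
def lv (n : ℕ) (i : ℕ) : ℕ := n - 1 - i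

theorem ren_lv_lv {n : ℕ} {M : Tm S} (h : Bd n M) :
    Tm.ren (lv n) (Tm.ren (lv n) M) = M := by
  rw [ren_ren, ren_congr_bd M h (g := id) fun i hi => ?_, ren_id]
  show n - 1 - (n - 1 - i) = i
  omega

theorem ren_lv_succ {n : ℕ} {M : Tm S} (h : Bd n M) :
    Tm.ren (lv (n + 1)) M = sh (Tm.ren (lv n) M) := by
  rw [sh, ren_ren]
  refine ren_congr_bd M h fun i hi => ?_
  show n + 1 - 1 - i = (n - 1 - i) + 1
  omega

/-- The global context built along the enumeration `e`. -/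
noncomputable def U (P : Spec S) (e : ℕ → Tm S) : ℕ → List (Tm S)
  | 0 => []
  | n + 1 =>
    if Bd (U P e n).length (e n) ∧
        ∃ s, Typ P (U P e n) (Tm.ren (lv (U P e n).length) (e n)) (Tm.sort s) then
      Tm.ren (lv (U P e n).length) (e n) :: U P e n
    else U P e n

/-- `e` repeats every expression that can occur as a type. -/
def Cover (P : Spec S) (e : ℕ → Tm S) : Prop :=
  ∀ n A, (∃ f Γ s, Typ P Γ (Tm.ren f A) (Tm.sort s)) → ∃ m, n ≤ m ∧ e m = A

/-- `M` has type `A` at stage `n` of the global context, variables named by levels. -/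
def GN (P : Spec S) (e : ℕ → Tm S) (n : ℕ) (M A : Tm S) : Prop :=
  Bd (U P e n).length M ∧ Bd (U P e n).length A ∧
    Typ P (U P e n) (Tm.ren (lv (U P e n).length) M) (Tm.ren (lv (U P e n).length) A)

/-- `M` has type `A` in the global context. -/
def G (P : Spec S) (e : ℕ → Tm S) (M A : Tm S) : Prop := ∃ n, GN P e n M A

/-- `σ` is an instance of `Γ` in the global context. -/
def GSub (P : Spec S) (e : ℕ → Tm S) (σ : ℕ → Tm S) (Γ : List (Tm S)) : Prop :=
  ∀ i T, Look Γ i T → G P e (σ i) (Tm.sub σ T)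

variable {P : Spec S} {e : ℕ → Tm S} {r : S → ℤ}

theorem U_wf : ∀ n, Wf P (U P e n) := by
  intro n
  induction n with
  | zero => exact .nil
  | succ n ih =>
    simp only [U]
    split
    · next h => obtain ⟨-, s, hs⟩ := h; exact .cons ih hs
    · exact ih

theorem GN.succ {n : ℕ} {M A : Tm S} (h : GN P e n M A) : GN P e (n + 1) M A := by
  obtain ⟨h1, h2, h3⟩ := h
  simp only [GN, U]
  split
  · next hc =>
    obtain ⟨-, s, hs⟩ := hc
    refine ⟨h1.mono _ (Nat.le_succ _), h2.mono _ (Nat.le_succ _), ?_⟩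
    rw [List.length_cons, ren_lv_succ h1, ren_lv_succ h2]
    exact .weak h3 hs
  · exact ⟨h1, h2, h3⟩

theorem GN.mono {n m : ℕ} {M A : Tm S} (h : GN P e n M A) (hm : n ≤ m) : GN P e m M A := by
  induction hm with
  | refl => exact h
  | step _ ih => exact ih.succ

theorem G.exists_var (hc : Cover P e) {T : Tm S} {s : S} (h : G P e T (Tm.sort s)) :
    ∃ i, G P e (Tm.var i) T := by
  obtain ⟨n, hn⟩ := h
  obtain ⟨m, hm, rfl⟩ := hc n T ⟨_, _, _, hn.2.2⟩
  obtain ⟨h1, -, h3⟩ := hn.mono hm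
  have hU : U P e (m + 1) = Tm.ren (lv (U P e m).length) (e m) :: U P e m := by
    simp only [U]; rw [if_pos ⟨h1, s, h3⟩]
  refine ⟨(U P e m).length, m + 1, ?_⟩
  simp only [GN, hU, List.length_cons]
  refine ⟨Nat.lt_succ_self _, h1.mono _ (Nat.le_succ _), ?_⟩
  rw [ren_lv_succ h1]
  simp only [Tm.ren, show lv ((U P e m).length + 1) (U P e m).length = 0 by simp [lv]]
  exact .start h3

theorem G.of_ax {a b : S} (h : P.ax a b) : G P e (Tm.sort a) (Tm.sort b) :=
  ⟨0, trivial, trivial, .sortAx h⟩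

theorem G.conv {M A B : Tm S} {s : S} (h : G P e M A) (hB : G P e B (Tm.sort s))
    (he : BetaEq A B) : G P e M B := by
  obtain ⟨n, hn⟩ := h
  obtain ⟨m, hm⟩ := hB
  obtain ⟨a1, a2, a3⟩ := hn.mono (le_max_left n m)
  obtain ⟨b1, -, b3⟩ := hm.mono (le_max_right n m)
  exact ⟨max n m, a1, b1, .conv a3 b3 (he.ren _)⟩

theorem G.step {M M' A : Tm S} (h : G P e M A) (hs : Step M M') : G P e M' A := by
  obtain ⟨n, h1, h2, h3⟩ := h
  exact ⟨n, Bd.step hs h1, h2, h3.step (hs.ren _)⟩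

theorem betaEq_of_ren_lv {n : ℕ} {A A' : Tm S} (h : Bd n A) (h' : Bd n A')
    (he : BetaEq (Tm.ren (lv n) A) (Tm.ren (lv n) A')) : BetaEq A A' := by
  have := he.ren (lv n)
  rwa [ren_lv_lv h, ren_lv_lv h'] at this

theorem G.typeUnique (hP : Strat P r) {M A A' : Tm S} (h : G P e M A) (h' : G P e M A') :
    BetaEq A A' := by
  obtain ⟨n, hn⟩ := h
  obtain ⟨m, hm⟩ := h'
  obtain ⟨-, a2, a3⟩ := hn.mono (le_max_left n m)
  obtain ⟨-, b2, b3⟩ := hm.mono (le_max_right n m)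
  exact betaEq_of_ren_lv a2 b2 (hP.typeUnique _ a3 b3)

theorem G.sortUnique (hP : Strat P r) {M : Tm S} {a b : S} (h : G P e M (Tm.sort a))
    (h' : G P e M (Tm.sort b)) : a = b :=
  sort_inj (G.typeUnique hP h h')

theorem G.convSort (hP : Strat P r) {A B : Tm S} {a b : S} (h : G P e A (Tm.sort a))
    (h' : G P e B (Tm.sort b)) (he : BetaEq A B) : a = b := by
  obtain ⟨n, hn⟩ := h
  obtain ⟨m, hm⟩ := h'
  exact hP.convSort (hn.mono (le_max_left n m)).2.2 (hm.mono (le_max_right n m)).2.2 (he.ren _)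

theorem GSub.bound : ∀ {Γ : List (Tm S)} {σ : ℕ → Tm S}, GSub P e σ Γ →
    ∃ N, ∀ i T, Look Γ i T → GN P e N (σ i) (Tm.sub σ T) := by
  intro Γ
  induction Γ with
  | nil => intro σ _; exact ⟨0, fun i T h => by cases h⟩
  | cons A Γ ih =>
    intro σ h
    have h' : GSub P e (σ ∘ Nat.succ) Γ := fun i T hi => by
      have := h _ _ (.succ A hi)
      rwa [sub_comp_succ] at this
    obtain ⟨N, hN⟩ := ih h'
    obtain ⟨m, hm⟩ := h 0 _ (.zero A Γ)
    refine ⟨max N m, fun i T hi => ?_⟩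
    cases hi with
    | zero => exact hm.mono (le_max_right N m)
    | succ _ hi =>
      rw [sub_comp_succ]
      exact (hN _ _ hi).mono (le_max_left N m)

theorem G.subst {Γ : List (Tm S)} {M A : Tm S} {σ : ℕ → Tm S} (h : Typ P Γ M A)
    (hσ : GSub P e σ Γ) : G P e (Tm.sub σ M) (Tm.sub σ A) := by
  obtain ⟨N, hN⟩ := hσ.bound
  have hlook : ∀ i, i < Γ.length → ∃ T, Look Γ i T := by
    intro i
    clear hσ hN h
    induction Γ generalizing i with
    | nil => intro h; cases h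
    | cons A Γ ih =>
      intro hi
      cases i with
      | zero => exact ⟨_, .zero A Γ⟩
      | succ i => obtain ⟨T, hT⟩ := ih i (Nat.lt_of_succ_lt_succ hi); exact ⟨_, .succ A hT⟩
  have hb : ∀ i, i < Γ.length → Bd (U P e N).length (σ i) := fun i hi => by
    obtain ⟨T, hT⟩ := hlook i hi
    exact (hN i T hT).1
  refine ⟨N, Bd.sub M (typ_bd h).1 hb, Bd.sub A (typ_bd h).2 hb, ?_⟩
  rw [ren_sub, ren_sub]
  refine h.subst (U_wf N) fun i T hi => ?_
  rw [← ren_sub]
  exact (hN i T hi).2.2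

theorem scons_sub_sh (N : Tm S) (σ : ℕ → Tm S) (T : Tm S) :
    Tm.sub (scons N σ) (sh T) = Tm.sub σ T := sub_comp_succ _ _

theorem sub_scons_inst (σ : ℕ → Tm S) (B N : Tm S) :
    Tm.sub σ (inst B N) = Tm.sub (scons (Tm.sub σ N) σ) B := by
  rw [sub_inst, inst_ups]

theorem GSub.scons {Γ : List (Tm S)} {σ : ℕ → Tm S} (h : GSub P e σ Γ) {A N : Tm S}
    (hN : G P e N (Tm.sub σ A)) : GSub P e (P340S.scons N σ) (A :: Γ) := by
  intro i T hi
  cases hi with
  | zero => rw [scons_sub_sh]; exact hN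
  | @succ _ _ j T hi => rw [scons_sub_sh]; exact h _ _ hi

end Vale.Agent.P340S
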